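import Crest.Agent.R12.HY.En

/-! Row 12, block HY: amplification, and the two bounds for the thin–thin energy.
Prefix for helper lemmas: `ha_`. -/

set_option autoImplicit false

namespace Crest.Agent.R12.HY

open Crest.Agent.R17
open scoped ComplexConjugate

/-- `LW 1 A x ≥ exp (-(log 2)²/2) ≥ 1/2` on `[A, 2A]`, `sum_le_EN` -/
theorem sum_le_two_EN {A : ℝ} (hA : 0 < A) (γ : O → ℂ) (X : ℝ) {R : Finset O}
    (hR : ∀ x ∈ R, Prim x ∧ A ≤ nm x ∧ nm x ≤ 2 * A) : ∑ x ∈ R, ‖XG γ X x‖ ^ 2 ≤ 2 * EN 1 A γ X := by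
  refine le_trans ?_ (mul_le_mul_of_nonneg_left (sum_le_EN one_pos hA γ X fun x hx => (hR x hx).1) zero_le_two)
  rw [Finset.mul_sum]
  refine Finset.sum_le_sum fun x hx => ?_
  rw [← mul_assoc]
  refine le_mul_of_one_le_left (by positivity) ?_
  have h1 : 0 ≤ Real.log (nm x / A) := Real.log_nonneg ((one_le_div hA).2 (hR x hx).2.1)
  have h2 : Real.log (nm x / A) ≤ Real.log 2 :=
    Real.log_le_log (div_pos (hA.trans_le (hR x hx).2.1) hA) ((div_le_iff₀ hA).2 (hR x hx).2.2)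
  have h3 := Real.add_one_le_exp (-(Real.log (nm x / A) ^ 2 / (2 * 1 ^ 2)))
  unfold LW
  nlinarith [Real.log_two_lt_d9]

open Classical in
theorem ha_sum {γ : O → ℂ} {B X P : ℝ} (hγ : Supp γ B X) (hP : 1 < P) {Ps : Finset O}
    (hPs : ∀ p ∈ Ps, Prime p ∧ Prim p ∧ P ≤ nm p) :
    ∑ p ∈ Ps, N2 (fun b => if p ∣ b then γ b else 0) X ≤ Real.log X / Real.log P * N2 γ X := by
  unfold N2
  rw [Finset.sum_comm, Finset.mul_sum]
  refine Finset.sum_le_sum fun b _ => ?_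
  by_cases h : γ b = 0
  · simp [h]
  have h0 := (hγ b h).1.ne_zero
  simp only [apply_ite norm, norm_zero, ite_pow, zero_pow two_ne_zero]
  rw [← Finset.sum_filter, Finset.sum_const, nsmul_eq_mul]
  refine mul_le_mul_of_nonneg_right ((card_large_primes_le h0 hP fun p hp => ?_).trans ?_) (by positivity)
  · obtain ⟨h1, h2⟩ := Finset.mem_filter.1 hp
    exact ⟨(hPs p h1).1, (hPs p h1).2.1, h2, (hPs p h1).2.2⟩
  · exact div_le_div_of_nonneg_right (Real.log_le_log (nm_pos h0) (hγ b h).2.2) (Real.log_pos hP).le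

/-- `P < max P₀ 2`: `sum_le_two_EN`, `en_thin`, `EE_mono`.  Else `amp` for `thn a B' γ` with the primes of
`exists_many_primes`; the first term is `en_thin` at `A P³`; in the second term
`(fun b => if p ∣ b then thn a B' γ b else 0) = thn a B' (fun b => if p ∣ b then γ b else 0)`, use the unamplified bound
(`sum_le_two_EN`, `en_thin` at `A`, `EE_mono`) and `∑_p N2 (γ 1_{p ∣ ·}) ≤ log (2B) / log P · N2 γ`
(`card_large_primes_le`).  `log P` cancels; `log (16 A P³) + log (2B) ≤ C Z^(ε/2)`. -/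
theorem amp_thin (h1 : StPO) (h2 : StL) {ε : ℝ} (hε : 0 < ε) : ∃ C : ℝ, 0 < C ∧
    ∀ (Z a A B B' P : ℝ) (γ : O → ℂ) (R : Finset O), 1 ≤ Z → Z⁻¹ ≤ a → a ≤ 1 → 1 ≤ A → A ≤ Z → 1 ≤ B →
    B ≤ Z → 0 < B' → 1 ≤ P → P ≤ Z → Supp γ B (2 * B) →
    (∀ x ∈ R, Prim x ∧ A ≤ nm x ∧ nm x ≤ 2 * A) →
    ∑ x ∈ R, ‖XG (thn a B' γ) (2 * B) x‖ ^ 2 ≤ C * Z ^ ε * (EE a (A * P ^ 3) B / P) * N2 γ (2 * B) := by
  classical
  obtain ⟨C₁, hC₁, e1⟩ := en_thin h1 h2 (half_pos hε)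
  obtain ⟨C₂, hC₂, e2⟩ := amp
  obtain ⟨c, hc, P₀, e3⟩ := exists_many_primes
  have hQ : (0 : ℝ) < max P₀ 2 := two_pos.trans_le (le_max_right _ _)
  refine ⟨2 * C₁ * max P₀ 2 + (C₂ + 4) * C₁ * (16 + 8 / ε) / c, by positivity,
    fun Z a A B B' P γ R hZ ha ha1 hA hAZ hB hBZ hB' hP hPZ hγ hR => ?_⟩
  have ha0 : 0 < a := (inv_pos.2 (by linarith)).trans_le ha
  have hAP : A ≤ A * P ^ 3 := le_mul_of_one_le_right (by linarith) (one_le_pow₀ hP)
  set W := Z ^ (ε / 2) with hW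
  set E := EE a (A * P ^ 3) B with hE
  have hW1 : 1 ≤ W := Real.one_le_rpow hZ (half_pos hε).le
  have hE0 : 0 ≤ E := EE_nonneg ha0.le (by positivity) (by linarith)
  have hN := N2_nonneg γ (2 * B)
  have e4 : ∀ δ : O → ℂ, Supp δ B (2 * B) →
      ∑ x ∈ R, ‖XG (thn a B' δ) (2 * B) x‖ ^ 2 ≤ 2 * C₁ * W * E * N2 δ (2 * B) := fun δ hδ => by
    refine (sum_le_two_EN (by linarith) _ _ hR).trans ?_
    have h3 := (e1 Z a A B B' δ hZ ha ha1 hA hB hBZ hB' hδ).trans (mul_le_mul_of_nonneg_right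
      (mul_le_mul_of_nonneg_left (EE_mono ha0.le (by linarith) hAP (by linarith)) (by positivity))
      (N2_nonneg δ _))
    linarith
  rw [show Z ^ ε = W * W by rw [hW, ← Real.rpow_add (by linarith), add_halves], add_mul, add_mul, add_mul]
  rcases lt_or_ge P (max P₀ 2) with hPQ | hPQ
  · refine le_add_of_le_of_nonneg ((e4 γ hγ).trans ?_) (by positivity)
    have h3 : E ≤ max P₀ 2 * (E / P) := by
      rw [← mul_div_assoc, le_div_iff₀ (by linarith), mul_comm]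
      exact mul_le_mul_of_nonneg_right hPQ.le hE0
    calc 2 * C₁ * W * E * N2 γ (2 * B) ≤ 2 * C₁ * (W * W) * (max P₀ 2 * (E / P)) * N2 γ (2 * B) := by
          gcongr
          exact le_mul_of_one_le_right (by linarith) hW1
      _ = _ := by ring
  refine le_add_of_nonneg_of_le (by positivity) ?_
  obtain ⟨Ps, hPs, h3⟩ := e3 P ((le_max_left _ _).trans hPQ)
  have hP2 : 2 ≤ P := (le_max_right _ _).trans hPQ
  have hl : 0 < Real.log P := Real.log_pos (by linarith)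
  have h4 := e2 A P B (2 * B) R Ps _ hA hP2 (hγ.mul fun b => (LW a B' (nm b) : ℂ)) hR hPs
  have h5 := e1 Z a (A * P ^ 3) B B' γ hZ ha ha1 (hA.trans hAP) hB hBZ hB' hγ
  have h6 : ∀ t : ℝ, 0 < t → t ≤ 16 * Z ^ 4 → Real.log t ≤ (16 + 8 / ε) * W := fun t ht h => by
    refine (Real.log_le_log ht h).trans ?_
    rw [Real.log_mul (by norm_num) (by positivity), Real.log_pow]
    have h7 := Real.log_le_rpow_div (by linarith : 0 ≤ Z) (half_pos hε)
    have h8 : (16 + 8 / ε) * W = 16 * W + 4 * (W / (ε / 2)) := by field_simp; ring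
    have h9 := Real.log_le_sub_one_of_pos (show (0 : ℝ) < 16 by norm_num)
    push_cast
    linarith
  have h7 : ∑ p ∈ Ps, ∑ x ∈ R, ‖XG (fun b => if p ∣ b then thn a B' γ b else 0) (2 * B) x‖ ^ 2 ≤
      2 * C₁ * W * E * ((16 + 8 / ε) * W / Real.log P * N2 γ (2 * B)) := by
    refine le_trans (Finset.sum_le_sum fun p _ => ?_) ((Finset.mul_sum _ _ _).symm.trans_le
      (mul_le_mul_of_nonneg_left ((ha_sum hγ (by linarith) fun p hp => ⟨(hPs p hp).1, (hPs p hp).2.1,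
        (hPs p hp).2.2.1⟩).trans ?_) (by positivity)))
    · rw [show (fun b => if p ∣ b then thn a B' γ b else 0) = thn a B' fun b => if p ∣ b then γ b else 0 from
        funext fun b => by simp [thn]]
      exact e4 _ fun b hb => hγ b fun h => hb (by simp [h])
    · gcongr
      refine h6 _ (by linarith) ?_
      nlinarith [le_self_pow₀ hZ four_ne_zero]
  have h8 : C₂ * (Real.log (16 * A * P ^ 3) / Real.log P) * EN 1 (A * P ^ 3) (thn a B' γ) (2 * B) ≤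
      C₂ * ((16 + 8 / ε) * W / Real.log P) * (C₁ * W * E * N2 γ (2 * B)) := by
    refine mul_le_mul (by
      gcongr
      refine h6 _ (by positivity) ?_
      rw [pow_succ' Z 3, mul_assoc]
      gcongr) h5 (tsum_nonneg fun x => mul_nonneg (LW_pos _ _ _).le (by positivity)) (by positivity)
  have h9 := (mul_le_mul_of_nonneg_right h3 (Finset.sum_nonneg fun x _ => by positivity)).trans
    (h4.trans (add_le_add h8 (mul_le_mul_of_nonneg_left h7 zero_le_two)))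
  refine (le_div_iff₀' (by positivity)).2 h9 |>.trans_eq ?_
  field_simp
  ring

theorem hab_N2 {a a' : ℝ} (h : a' ≤ a) (ha : 0 < a') (B' : ℝ) (γ : O → ℂ) (X : ℝ) :
    N2 (thn a' B' γ) X ≤ ∑ b ∈ ball X, ‖γ b‖ ^ 2 * LW a B' (nm b) := by
  refine Finset.sum_le_sum fun b _ => ?_
  have h0 := LW_pos a' B' (nm b)
  rw [norm_mul, mul_pow, Complex.norm_real, Real.norm_of_nonneg h0.le]
  refine mul_le_mul_of_nonneg_left (le_trans ?_ (LW_mono ha h _ _)) (by positivity)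
  rw [sq]
  exact mul_le_of_le_one_left h0.le (LW_le_one _ _ _)

/-- drop the row weight (`LW_le_one`); `thn (a/√2) B' γ = thn a B' (thn a B' γ)` (`LW_sq`), `amp_thin` -/
theorem hyp_amp (h1 : StPO) (h2 : StL) {ε : ℝ} (hε : 0 < ε) : ∃ C : ℝ, 0 < C ∧
    ∀ (Z a A B P : ℝ) (γ : O → ℂ), 1 ≤ Z → Z⁻¹ ≤ a → a ≤ 1 → 1 ≤ A → A ≤ Z → 1 ≤ B → B ≤ Z → 1 ≤ P →
    P ≤ Z → Supp γ B (2 * B) → Hyp a A B γ (C * Z ^ ε * (EE a (A * P ^ 3) B / P)) := by
  classical
  obtain ⟨C, hC, h⟩ := amp_thin h1 h2 hε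
  refine ⟨C, hC, fun Z a A B P γ hZ ha ha1 hA hAZ hB hBZ hP hPZ hγ A' B' _ hB' => ?_⟩
  have ha0 : 0 < a := lt_of_lt_of_le (by positivity) ha
  have e : thn (a / √2) B' γ = thn a B' (thn a B' γ) := by
    funext b
    simp only [thn]
    rw [← LW_sq ha0]
    push_cast
    ring
  have k1 := h Z a A B B' P (thn a B' γ) ((pball (2 * A)).filter fun x => A < nm x) hZ ha ha1 hA hAZ
    hB hBZ hB' hP hPZ (hγ.mul _) fun x hx => by
      rw [Finset.mem_filter, mem_pball] at hx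
      exact ⟨hx.1.2, hx.2.le, hx.1.1⟩
  have k2 := hab_N2 (le_refl a) ha0 B' γ (2 * B)
  have k3 : 0 ≤ C * Z ^ ε * (EE a (A * P ^ 3) B / P) := by
    have := EE_nonneg (a := a) (A := A * P ^ 3) (B := B) ha0.le (by positivity) (by positivity)
    positivity
  rw [e]
  refine le_trans (Finset.sum_le_sum fun x _ => ?_) (k1.trans (mul_le_mul_of_nonneg_left k2 k3))
  exact mul_le_of_le_one_left (by positivity) (LW_le_one _ _ _)

/-- `LW (a/√2) A' x ≤ LW a A' x ≤ LW a A'' x` with `A'' ∈ [A, 2A]` (`LW_mono`, `LW_clamp`), `sum_le_EN`, `h2` for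
`thn (a/√2) B' γ`; `N2d ≤ C (2B)^ε N2` (`dn_pow_le 4`), `LW (a/√2) ^ 2 ≤ LW (a/√2) ≤ LW a`. -/
theorem hyp_L (h2 : StL) {ε : ℝ} (hε : 0 < ε) : ∃ C : ℝ, 0 < C ∧
    ∀ (a A B : ℝ) (γ : O → ℂ), 0 < a → a ≤ 1 → 1 ≤ A → 1 ≤ B → Supp γ B (2 * B) →
    Hyp a A B γ (C * (B / a) ^ ε * (a * A + √A + a ^ (1 / 3 : ℝ) * (A * B) ^ (2 / 3 : ℝ) + B / a +
      A ^ (1 / 3 : ℝ) * B * a ^ (-(1 / 3) : ℝ))) := by
  classical
  obtain ⟨C₂, h⟩ := h2 ε hε
  obtain ⟨C₄, hC₄, h4⟩ := dn_pow_le 4 hε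
  refine ⟨max C₂ 1 * (2 * (1 + C₄) * 2 ^ ε), by positivity,
    fun a A B γ ha ha1 hA hB hγ A' B' hA' _ => ?_⟩
  have hs : a / √2 ≤ a := div_le_self ha.le (Real.one_le_sqrt.2 one_le_two)
  have hs0 : 0 < a / √2 := by positivity
  obtain ⟨A'', hA1, hA2, hA3⟩ := LW_clamp a (lo := A) (hi := 2 * A) (by linarith) (by linarith) hA'
  have hA0 : 0 < A'' := by linarith
  have hγ' : Supp (thn (a / √2) B' γ) B (2 * B) := hγ.mul _
  have k1 := h a A'' B _ ha ha1 (by linarith) (by linarith) hγ'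
  have k2 := hab_N2 hs hs0 B' γ (2 * B)
  have k0 := sum_le_EN ha hA0 (thn (a / √2) B' γ) (2 * B)
    (S := (pball (2 * A)).filter fun x => A < nm x) fun x hx => by
      rw [Finset.mem_filter, mem_pball] at hx
      exact hx.1.2
  have k3 : N2d (thn (a / √2) B' γ) (2 * B) ≤ C₄ * (2 * B) ^ ε * N2 (thn (a / √2) B' γ) (2 * B) := by
    unfold N2d N2
    rw [Finset.mul_sum]
    refine Finset.sum_le_sum fun b _ => ?_
    by_cases hb : thn (a / √2) B' γ b = 0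
    · rw [hb]
      simp
    · obtain ⟨b1, -, b3⟩ := hγ' b hb
      rw [mul_comm]
      refine mul_le_mul_of_nonneg_right ((h4 b b1.ne_zero).trans ?_) (by positivity)
      have := nm_nonneg b
      gcongr
  have hN := N2_nonneg (thn (a / √2) B' γ) (2 * B)
  have hNd := N2d_nonneg (thn (a / √2) B' γ) (2 * B)
  generalize N2 (thn (a / √2) B' γ) (2 * B) = N at k1 k2 k3 hN
  generalize N2d (thn (a / √2) B' γ) (2 * B) = Nd at k1 k3 hNd
  have hB0 : 0 < B := by linarith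
  have hA00 : 0 < A := by linarith
  have q1 : 1 ≤ (B / a) ^ ε := Real.one_le_rpow ((one_le_div ha).2 (by linarith)) hε.le
  have q2 : (1 : ℝ) ≤ 2 ^ ε := Real.one_le_rpow one_le_two hε.le
  have q3 : (2 * B / a) ^ ε = 2 ^ ε * (B / a) ^ ε := by
    rw [mul_div_assoc, Real.mul_rpow (by norm_num) (by positivity)]
  have q4 : (2 * B) ^ ε ≤ 2 ^ ε * (B / a) ^ ε := by
    rw [← q3]
    exact Real.rpow_le_rpow (by positivity) (le_div_self (by positivity) ha ha1) hε.le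
  have two : ∀ {x y s : ℝ}, 0 ≤ x → 0 ≤ y → x ≤ 2 * y → 0 ≤ s → s ≤ 1 → x ^ s ≤ 2 * y ^ s := by
    intro x y s hx hy hxy hs0 hs1
    refine (Real.rpow_le_rpow hx hxy hs0).trans ?_
    rw [Real.mul_rpow (by norm_num) hy]
    refine mul_le_mul_of_nonneg_right ?_ (by positivity)
    simpa using Real.rpow_le_rpow_of_exponent_le one_le_two hs1
  have r1 : a * A'' ≤ 2 * (a * A) := by nlinarith
  have r2 : √A'' ≤ 2 * √A := by
    rw [Real.sqrt_eq_rpow, Real.sqrt_eq_rpow]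
    exact two hA0.le hA00.le hA2 (by norm_num) (by norm_num)
  have r3 : (A'' * B) ^ (2 / 3 : ℝ) ≤ 2 * (A * B) ^ (2 / 3 : ℝ) :=
    two (by positivity) (by positivity) (by nlinarith) (by norm_num) (by norm_num)
  have r4 : A'' ^ (1 / 3 : ℝ) ≤ 2 * A ^ (1 / 3 : ℝ) :=
    two hA0.le hA00.le hA2 (by norm_num) (by norm_num)
  have q5 : 1 ≤ 2 ^ ε * (B / a) ^ ε := one_le_mul_of_one_le_of_one_le q2 q1
  rw [q3] at k1
  generalize hQ : (2 : ℝ) ^ ε * (B / a) ^ ε = Q at k1 q4 q5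
  have k4 : (a * A'' + √A'') * N + a ^ (1 / 3 : ℝ) * (A'' * B) ^ (2 / 3 : ℝ) * Nd +
      Q * (B / a + A'' ^ (1 / 3 : ℝ) * B * a ^ (-(1 / 3) : ℝ)) * N ≤
      2 * (1 + C₄) * Q * (a * A + √A + a ^ (1 / 3 : ℝ) * (A * B) ^ (2 / 3 : ℝ) + B / a +
        A ^ (1 / 3 : ℝ) * B * a ^ (-(1 / 3) : ℝ)) * N := by
    have s1 : (a * A'' + √A'') * N ≤ 2 * (1 + C₄) * Q * (a * A + √A) * N := by
      refine mul_le_mul_of_nonneg_right ?_ hN
      calc a * A'' + √A'' ≤ 2 * (1 + 0) * 1 * (a * A + √A) := by linarith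
        _ ≤ _ := by gcongr
    have s2 : a ^ (1 / 3 : ℝ) * (A'' * B) ^ (2 / 3 : ℝ) * Nd ≤
        2 * (1 + C₄) * Q * (a ^ (1 / 3 : ℝ) * (A * B) ^ (2 / 3 : ℝ)) * N := by
      calc _ ≤ a ^ (1 / 3 : ℝ) * (2 * (A * B) ^ (2 / 3 : ℝ)) * (C₄ * Q * N) := by
            gcongr
            exact k3.trans (by gcongr)
        _ = 2 * (0 + C₄) * Q * (a ^ (1 / 3 : ℝ) * (A * B) ^ (2 / 3 : ℝ)) * N := by ring
        _ ≤ _ := by gcongr; norm_num
    have s3 : Q * (B / a + A'' ^ (1 / 3 : ℝ) * B * a ^ (-(1 / 3) : ℝ)) * N ≤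
        2 * (1 + C₄) * Q * (B / a + A ^ (1 / 3 : ℝ) * B * a ^ (-(1 / 3) : ℝ)) * N := by
      refine mul_le_mul_of_nonneg_right ?_ hN
      calc _ ≤ Q * (2 * (B / a) + 2 * A ^ (1 / 3 : ℝ) * B * a ^ (-(1 / 3) : ℝ)) := by
            gcongr
            have : 0 ≤ B / a := by positivity
            linarith
        _ = 2 * (1 + 0) * Q * (B / a + A ^ (1 / 3 : ℝ) * B * a ^ (-(1 / 3) : ℝ)) := by ring
        _ ≤ _ := by gcongr
    linarith
  calc _ ≤ _ := Finset.sum_le_sum fun x hx => by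
        rw [Finset.mem_filter, mem_pball] at hx
        exact mul_le_mul_of_nonneg_right ((LW_mono hs0 hs _ _).trans (hA3 _ hx.2.le hx.1.1))
          (by positivity)
    _ ≤ _ := k0
    _ ≤ _ := k1
    _ ≤ max C₂ 1 * _ := mul_le_mul_of_nonneg_right (le_max_left _ _) (by positivity)
    _ ≤ max C₂ 1 * _ := mul_le_mul_of_nonneg_left k4 (by positivity)
    _ ≤ max C₂ 1 * (2 * (1 + C₄) * Q * (a * A + √A + a ^ (1 / 3 : ℝ) * (A * B) ^ (2 / 3 : ℝ) + B / a +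
        A ^ (1 / 3 : ℝ) * B * a ^ (-(1 / 3) : ℝ)) * ∑ b ∈ ball (2 * B), ‖γ b‖ ^ 2 * LW a B' (nm b)) := by
      gcongr
    _ = _ := by
      rw [← hQ]
      ring

end Crest.Agent.R12.HY
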