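import Crest.Agent.R12.HY.Defs

/-! Row 12, block HY: from the thin–thin energy to the bilinear form.  Prefix for helper lemmas: `hb_`. -/

set_option autoImplicit false

namespace Crest.Agent.R12.HY

open Crest.Agent.R17 MeasureTheory
open scoped ComplexConjugate

theorem hb_a {a : ℝ} (ha : 0 < a) : 0 < a / √2 ∧ a / √2 ≤ a :=
  ⟨by positivity, div_le_self ha.le (Real.one_le_sqrt.2 (by norm_num))⟩

theorem hb_exp {a' a A u : ℝ} (ha' : 0 < a') (haa : a' ≤ a) (hA : 0 < A) :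
    √(a' * (A * Real.exp u) + √(A * Real.exp u)) ≤ Real.exp |u| * √(a * A + √A) := by
  have hE : 1 ≤ Real.exp |u| := Real.one_le_exp (abs_nonneg u)
  have h1 : Real.exp u ≤ Real.exp |u| := Real.exp_le_exp.2 (le_abs_self u)
  have h2 : Real.exp |u| ≤ Real.exp |u| ^ 2 := by nlinarith
  have ha : 0 < a := ha'.trans_le haa
  rw [← Real.sqrt_sq (Real.exp_pos |u|).le, ← Real.sqrt_mul (sq_nonneg _)]
  refine Real.sqrt_le_sqrt ?_
  have h3 : √(A * Real.exp u) ≤ Real.exp |u| ^ 2 * √A := by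
    rw [Real.sqrt_mul hA.le, mul_comm]
    refine mul_le_mul_of_nonneg_right ?_ (Real.sqrt_nonneg _)
    refine le_trans ?_ h2
    rw [Real.sqrt_le_left (Real.exp_pos _).le]
    exact h1.trans h2
  have h4 : a' * (A * Real.exp u) ≤ a * (A * Real.exp |u| ^ 2) := by
    have := h1.trans h2
    gcongr
  nlinarith

theorem hb_prod {a A B : ℝ} (ha : 0 < a) (ha1 : a ≤ 1) (hA : 1 ≤ A) (hB : 1 ≤ B) :
    √(a * A + √A) * √(a * B + √B) ≤ 2 * √(a * (A * B) + √(A * B)) := by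
  have hA0 : 0 < A := by linarith
  have hB0 : 0 < B := by linarith
  have h1 : √A ≤ A := by rw [Real.sqrt_le_left hA0.le]; nlinarith
  have h2 : √B ≤ B := by rw [Real.sqrt_le_left hB0.le]; nlinarith
  rw [← Real.sqrt_mul (by positivity), show (2 : ℝ) = √4 by
    rw [show (4 : ℝ) = 2 ^ 2 by norm_num, Real.sqrt_sq (by norm_num)], ← Real.sqrt_mul (by norm_num)]
  refine Real.sqrt_le_sqrt ?_
  rw [Real.sqrt_mul hA0.le]
  have h3 : a * A * √B ≤ a * (A * B) := by rw [← mul_assoc]; gcongr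
  have h4 : √A * (a * B) ≤ a * (A * B) := by
    calc √A * (a * B) ≤ A * (a * B) := by gcongr
      _ = _ := by ring
  have h5 : a * A * (a * B) ≤ a * (A * B) := by
    calc a * A * (a * B) ≤ a * A * (1 * B) := by gcongr
      _ = _ := by ring
  have h6 : 0 ≤ √A * √B := by positivity
  have h7 : 0 ≤ a * (A * B) := by positivity
  nlinarith

open Classical in
theorem hb_filter (γ : O → ℂ) (T : Finset O) (w : O → ℝ) :
    ∑ x ∈ T.filter (fun x => γ x ≠ 0), ‖γ x‖ ^ 2 * w x = ∑ x ∈ T, ‖γ x‖ ^ 2 * w x :=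
  Finset.sum_filter_of_ne fun x _ h h0 => h (by simp [h0])

/-- Cauchy–Schwarz, `LW_clamp` into `[B, 2B]`, `sum_LW_le`, `LW_mono` -/
theorem sum_norm_LW_le : ∃ C : ℝ, 0 < C ∧ ∀ (a B B' : ℝ) (γ : O → ℂ), 0 < a → a ≤ 1 → 0 < B → 0 < B' →
    Supp γ B (2 * B) → ∑ b ∈ ball (2 * B), ‖γ b‖ * LW (a / √2) B' (nm b) ≤
      C * √(a * B + √B) * √(∑ b ∈ ball (2 * B), ‖γ b‖ ^ 2 * LW a B' (nm b)) := by
  classical
  obtain ⟨C, hC, hsum⟩ := sum_LW_le
  refine ⟨√(2 * C), Real.sqrt_pos.2 (by positivity), fun a B B' γ ha ha1 hB hB' hγ => ?_⟩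
  obtain ⟨ha', haa⟩ := hb_a ha
  have h1 := bta_cs (α := γ) (T := ball (2 * B)) (S := (ball (2 * B)).filter fun b => γ b ≠ 0)
    (fun b => LW (a / √2) B' (nm b)) (fun _ => 1) (fun b => (LW_pos _ _ _).le)
    (fun b hb => Finset.mem_filter.2 ⟨mem_ball.2 (hγ b hb).2.2, hb⟩)
  simp only [mul_one, one_pow] at h1
  refine h1.trans ?_
  rw [mul_comm]
  refine mul_le_mul ?_ (Real.sqrt_le_sqrt (Finset.sum_le_sum fun b _ =>
    mul_le_mul_of_nonneg_left (LW_mono ha' haa _ _) (sq_nonneg _))) (Real.sqrt_nonneg _) (by positivity)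
  rw [← Real.sqrt_mul (by positivity)]
  refine Real.sqrt_le_sqrt ?_
  obtain ⟨Y', hY1, hY2, hY⟩ := LW_clamp a hB (by linarith : B ≤ 2 * B) hB'
  have hY0 : 0 < Y' := hB.trans_le hY1
  have h2 := hsum a Y' ((ball (2 * B)).filter fun b => γ b ≠ 0) ha (by linarith) hY0
    fun n hn => (hγ n (Finset.mem_filter.1 hn).2).1.ne_zero
  have h3 : √Y' ≤ 2 * √B := by
    rw [show 2 * √B = √(4 * B) by
      rw [Real.sqrt_mul (by norm_num), show (4 : ℝ) = 2 ^ 2 by norm_num, Real.sqrt_sq (by norm_num)]]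
    exact Real.sqrt_le_sqrt (by linarith)
  calc ∑ b ∈ (ball (2 * B)).filter (fun b => γ b ≠ 0), LW (a / √2) B' (nm b)
      ≤ ∑ b ∈ (ball (2 * B)).filter (fun b => γ b ≠ 0), LW a Y' (nm b) :=
        Finset.sum_le_sum fun b hb => by
          have hb' := hγ b (Finset.mem_filter.1 hb).2
          exact (LW_mono ha' haa _ _).trans (hY _ hb'.2.1.le hb'.2.2)
    _ ≤ C * (a * Y' + √Y') := h2
    _ ≤ C * (a * (2 * B) + 2 * √B) := by gcongr
    _ = 2 * C * (a * B + √B) := by ring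

/-- `BilU_le_EN` with `A₀ = A`, `B₀ = B`; `√(a' A e^u + √(A e^u)) ≤ e^|u| √(a A + √A)`,
`(a A + √A)(a B + √B) ≤ 3 (a A B + √(A B))`, `sum_norm_LW_le`, `LW_mono` -/
theorem bilU_le : ∃ C : ℝ, 0 < C ∧ ∀ (a A B B' Δ u : ℝ) (α γ : O → ℂ), 0 < a → a ≤ 1 → 1 ≤ A → 1 ≤ B →
    0 < B' → 0 ≤ Δ → Supp α A (2 * A) → Supp γ B (2 * B) → Hyp a A B γ Δ →
    ‖BilU (a / √2) (A * Real.exp u) B' α γ (2 * A) (2 * B)‖ ≤
      C * (√Δ + (A * B) ^ (-(1 : ℝ) / 6) * √(a * (A * B) + √(A * B))) * (Real.exp |u| *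
        (√(∑ x ∈ ball (2 * A), ‖α x‖ ^ 2 * LW a (A * Real.exp u) (nm x)) *
          √(∑ b ∈ ball (2 * B), ‖γ b‖ ^ 2 * LW a B' (nm b)))) := by
  classical
  obtain ⟨C₁, hC₁, h₁⟩ := BilU_le_EN
  obtain ⟨C₂, hC₂, h₂⟩ := sum_norm_LW_le
  refine ⟨1 + 2 * C₁ * C₂, by positivity,
    fun a A B B' Δ u α γ ha ha1 hA hB hB' hΔ hα hγ hyp => ?_⟩
  obtain ⟨ha', haa⟩ := hb_a ha
  have hA0 : 0 < A := by linarith
  have hB0 : 0 < B := by linarith
  have hA' : 0 < A * Real.exp u := mul_pos hA0 (Real.exp_pos u)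
  have e1 := h₁ (a / √2) (A * Real.exp u) B' A B (2 * A) (2 * B) α γ ha' (haa.trans ha1) hA' hA0 hB0 hα hγ
  have e2 := h₂ a B B' γ ha ha1 hB0 hB' hγ
  have e3 := Real.sqrt_le_sqrt (hyp (A * Real.exp u) B' hA' hB')
  rw [Real.sqrt_mul hΔ] at e3
  have e4 : √(∑ x ∈ ball (2 * A), ‖α x‖ ^ 2 * LW (a / √2) (A * Real.exp u) (nm x)) ≤
      √(∑ x ∈ ball (2 * A), ‖α x‖ ^ 2 * LW a (A * Real.exp u) (nm x)) :=
    Real.sqrt_le_sqrt (Finset.sum_le_sum fun b _ =>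
      mul_le_mul_of_nonneg_left (LW_mono ha' haa _ _) (sq_nonneg _))
  have e5 := hb_exp (u := u) ha' haa hA0
  have e6 := hb_prod ha ha1 hA hB
  have hE : 1 ≤ Real.exp |u| := Real.one_le_exp (abs_nonneg u)
  set P := √(∑ x ∈ ball (2 * A), ‖α x‖ ^ 2 * LW a (A * Real.exp u) (nm x)) with hP
  set Q := √(∑ b ∈ ball (2 * B), ‖γ b‖ ^ 2 * LW a B' (nm b)) with hQ
  set r := (A * B) ^ (-(1 : ℝ) / 6) with hr
  set W := √(a * (A * B) + √(A * B)) with hW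
  set E := Real.exp |u| with hEdef
  have hP0 : 0 ≤ P := Real.sqrt_nonneg _
  have hQ0 : 0 ≤ Q := Real.sqrt_nonneg _
  have hr0 : 0 ≤ r := by positivity
  have hW0 : 0 ≤ W := Real.sqrt_nonneg _
  have hD0 : 0 ≤ √Δ := Real.sqrt_nonneg _
  have e7 : C₁ * r * √(a / √2 * (A * Real.exp u) + √(A * Real.exp u)) *
      ∑ b ∈ ball (2 * B), ‖γ b‖ * LW (a / √2) B' (nm b) ≤ 2 * C₁ * C₂ * (r * W) * (E * Q) := by
    calc _ ≤ C₁ * r * (E * √(a * A + √A)) * (C₂ * √(a * B + √B) * Q) := by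
          refine mul_le_mul (mul_le_mul_of_nonneg_left e5 (by positivity)) e2
            (Finset.sum_nonneg fun b _ => mul_nonneg (norm_nonneg _) (LW_pos _ _ _).le) (by positivity)
      _ = C₁ * C₂ * r * (E * Q) * (√(a * A + √A) * √(a * B + √B)) := by ring
      _ ≤ C₁ * C₂ * r * (E * Q) * (2 * W) := mul_le_mul_of_nonneg_left e6 (by positivity)
      _ = _ := by ring
  have e8 : √Δ * Q ≤ √Δ * (E * Q) :=
    mul_le_mul_of_nonneg_left (le_mul_of_one_le_left hQ0 hE) hD0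
  refine e1.trans ?_
  calc _ ≤ P * (√Δ * (E * Q) + 2 * C₁ * C₂ * (r * W) * (E * Q)) :=
        mul_le_mul e4 (add_le_add (e3.trans e8) e7) (by
          have := Finset.sum_nonneg (s := ball (2 * B))
            fun b _ => mul_nonneg (norm_nonneg (γ b)) (LW_pos (a / √2) B' (nm b)).le
          positivity) hP0
    _ = (√Δ + 2 * C₁ * C₂ * (r * W)) * (E * (P * Q)) := by ring
    _ ≤ (1 + 2 * C₁ * C₂) * (√Δ + r * W) * (E * (P * Q)) := by
        refine mul_le_mul_of_nonneg_right ?_ (by positivity)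
        have h1 : 0 ≤ r * W := mul_nonneg hr0 hW0
        have h2 : 0 ≤ 2 * C₁ * C₂ * √Δ := by positivity
        nlinarith

/-- `Bil_thin`, `norm_integral_le_of_norm_le`, `bilU_le` with `B' = Y/A e^{-u}`, `integral_thin_le` with
`S = (ball (2A)).filter (α · ≠ 0)`, `T = (ball (2B)).filter (γ · ≠ 0)` (`Finset.sum_filter_of_ne` or `sum_subset`),
`min r r⁻¹ ≤ 1` -/
theorem bil_le : ∃ C : ℝ, 0 < C ∧ ∀ (Y a A B Δ : ℝ) (α γ : O → ℂ), 0 < Y → 0 < a → a ≤ 1 → 1 ≤ A → 1 ≤ B →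
    0 ≤ Δ → Supp α A (2 * A) → Supp γ B (2 * B) → Hyp a A B γ Δ →
    ‖Bil a Y α γ (2 * A) (2 * B)‖ ≤ C * (√Δ + (A * B) ^ (-(1 : ℝ) / 6) * √(a * (A * B) + √(A * B))) *
      (√(N2 α (2 * A)) * √(N2 γ (2 * B))) := by
  classical
  obtain ⟨C₁, hC₁, h₁⟩ := bilU_le
  obtain ⟨C₂, hC₂, h₂⟩ := integral_thin_le
  refine ⟨C₁ * C₂, by positivity, fun Y a A B Δ α γ hY ha ha1 hA hB hΔ hα hγ hyp => ?_⟩
  have hA0 : 0 < A := by linarith
  have hB0 : 0 < B := by linarith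
  obtain ⟨-, e1⟩ := Bil_thin ha hY hA0 α γ (2 * A) (2 * B)
  obtain ⟨i2, e2⟩ := h₂ a Y A B ((ball (2 * A)).filter fun x => α x ≠ 0)
    ((ball (2 * B)).filter fun x => γ x ≠ 0) (fun x => ‖α x‖ ^ 2) (fun x => ‖γ x‖ ^ 2) ha ha1 hY hA0 hB0
    (fun x hx => ⟨sq_nonneg _, (hα x (Finset.mem_filter.1 hx).2).2⟩)
    (fun x hx => ⟨sq_nonneg _, (hγ x (Finset.mem_filter.1 hx).2).2⟩)
  simp only [hb_filter] at i2 e2
  have f1 := hb_filter α (ball (2 * A)) (fun _ => 1)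
  have f2 := hb_filter γ (ball (2 * B)) (fun _ => 1)
  simp only [mul_one] at f1 f2
  rw [f1, f2] at e2
  set K := C₁ * (√Δ + (A * B) ^ (-(1 : ℝ) / 6) * √(a * (A * B) + √(A * B))) with hK
  have hK0 : 0 ≤ K := by positivity
  have e3 : ‖∫ u : ℝ, BilU (a / √2) (A * Real.exp u) (Y / A * Real.exp (-u)) α γ (2 * A) (2 * B)‖ ≤
      ∫ u : ℝ, K * (Real.exp |u| *
        (√(∑ x ∈ ball (2 * A), ‖α x‖ ^ 2 * LW a (A * Real.exp u) (nm x)) *
          √(∑ b ∈ ball (2 * B), ‖γ b‖ ^ 2 * LW a (Y / A * Real.exp (-u)) (nm b)))) :=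
    norm_integral_le_of_norm_le (i2.const_mul K) (Filter.Eventually.of_forall fun u =>
      h₁ a A B _ Δ u α γ ha ha1 hA hB (by positivity) hΔ hα hγ hyp)
  rw [integral_const_mul] at e3
  have hm : min (A * B / Y) (Y / (A * B)) ≤ 1 := by
    rcases le_total (A * B) Y with h | h
    · exact (min_le_left _ _).trans ((div_le_one hY).2 h)
    · exact (min_le_right _ _).trans ((div_le_one (by positivity)).2 h)
  have hpi : 1 ≤ √(Real.pi / 2) := by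
    rw [Real.one_le_sqrt]
    linarith [Real.pi_gt_three]
  have hc : (a * √(Real.pi / 2))⁻¹ * a ≤ 1 := by
    rw [mul_inv, mul_right_comm, inv_mul_cancel₀ ha.ne', one_mul]
    exact inv_le_one_of_one_le₀ hpi
  have hc0 : 0 ≤ (a * √(Real.pi / 2))⁻¹ := by positivity
  have hN : 0 ≤ √(N2 α (2 * A)) * √(N2 γ (2 * B)) := by positivity
  have e4 : C₂ * a * min (A * B / Y) (Y / (A * B)) * √(∑ x ∈ ball (2 * A), ‖α x‖ ^ 2) *
      √(∑ x ∈ ball (2 * B), ‖γ x‖ ^ 2) ≤ C₂ * a * (√(N2 α (2 * A)) * √(N2 γ (2 * B))) := by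
    unfold N2
    rw [mul_assoc (C₂ * a * _)]
    refine mul_le_mul_of_nonneg_right ?_ (by positivity)
    exact mul_le_of_le_one_right (by positivity) hm
  rw [e1, norm_mul, Complex.norm_real, Real.norm_of_nonneg hc0]
  calc _ ≤ (a * √(Real.pi / 2))⁻¹ * (K * (C₂ * a * (√(N2 α (2 * A)) * √(N2 γ (2 * B))))) :=
        mul_le_mul_of_nonneg_left (e3.trans (mul_le_mul_of_nonneg_left (e2.trans e4) hK0)) hc0
    _ = ((a * √(Real.pi / 2))⁻¹ * a) * (K * C₂ * (√(N2 α (2 * A)) * √(N2 γ (2 * B)))) := by ring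
    _ ≤ K * C₂ * (√(N2 α (2 * A)) * √(N2 γ (2 * B))) :=
        mul_le_of_le_one_left (by positivity) hc
    _ = _ := by rw [hK]; ring

end Crest.Agent.R12.HY
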