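import Crest.Agent.R12.Base.All

/-! Row 12, block HY (owner helper57): definitions.  Blueprint: notes12/R12.md, section HY.
`Dual → Rows → En → Amp`, `Bil`, `Main`. -/

set_option autoImplicit false

namespace Crest.Agent.R12.HY

open Crest.Agent.R17
open scoped ComplexConjugate

/-- thin columns -/
noncomputable abbrev thn (a B' : ℝ) (γ : O → ℂ) : O → ℂ := fun b => γ b * (LW a B' (nm b) : ℂ)

/-- the energy bound for thin columns -/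
noncomputable def EE (a A B : ℝ) : ℝ :=
  A + a * (A * B) ^ (2 / 3 : ℝ) + A ^ (2 / 3 : ℝ) * B ^ (1 / 6 : ℝ) + B / a +
    A ^ (1 / 3 : ℝ) * B * a ^ (1 / 3 : ℝ) + B ^ (4 / 3 : ℝ) * a ^ (-(1 / 3) : ℝ)

/-- the bound for the dual rows at `U = K` -/
noncomputable def WW (a B K : ℝ) : ℝ :=
  (a * B + √B) * K ^ (1 / 3 : ℝ) + a ^ (1 / 3 : ℝ) * B ^ (2 / 3 : ℝ) * K ^ (2 / 3 : ℝ) +
    (a⁻¹ + B ^ (1 / 3 : ℝ) * a ^ (-(1 / 3) : ℝ)) * K

open Classical in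
/-- the thin–thin energy is at most `Δ` times the thin norm, for all centres -/
def Hyp (a A B : ℝ) (γ : O → ℂ) (Δ : ℝ) : Prop :=
  ∀ A' B' : ℝ, 0 < A' → 0 < B' →
    ∑ x ∈ (pball (2 * A)).filter (fun x => A < nm x),
        LW (a / √2) A' (nm x) * ‖XG (thn (a / √2) B' γ) (2 * B) x‖ ^ 2 ≤
      Δ * ∑ b ∈ ball (2 * B), ‖γ b‖ ^ 2 * LW a B' (nm b)

/-- move the centre of the weight into the interval where it is used -/
theorem LW_clamp (a : ℝ) {lo hi Y : ℝ} (hlo : 0 < lo) (h : lo ≤ hi) (hY : 0 < Y) :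
    ∃ Y', lo ≤ Y' ∧ Y' ≤ hi ∧ ∀ x, lo ≤ x → x ≤ hi → LW a Y x ≤ LW a Y' x := by
  have key : ∀ {Y' x : ℝ}, 0 < Y' → 0 < x → (Y ≤ Y' ∧ Y' ≤ x ∨ x ≤ Y' ∧ Y' ≤ Y) →
      LW a Y x ≤ LW a Y' x := by
    intro Y' x hY' hx hc
    unfold LW
    rw [Real.exp_le_exp, neg_le_neg_iff, Real.log_div hx.ne' hY.ne', Real.log_div hx.ne' hY'.ne']
    refine div_le_div_of_nonneg_right ?_ (by positivity)
    rcases hc with ⟨h1, h2⟩ | ⟨h1, h2⟩
    · have e1 := Real.log_le_log hY h1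
      have e2 := Real.log_le_log hY' h2
      nlinarith
    · have e1 := Real.log_le_log hx h1
      have e2 := Real.log_le_log hY' h2
      nlinarith
  rcases le_total Y lo with h1 | h1
  · exact ⟨lo, le_rfl, h, fun x hx _ => key hlo (hlo.trans_le hx) (Or.inl ⟨h1, hx⟩)⟩
  rcases le_total Y hi with h2 | h2
  · exact ⟨Y, h1, h2, fun x _ _ => le_rfl⟩
  · exact ⟨hi, h, le_rfl, fun x hx hx' => key (hlo.trans_le h) (hlo.trans_le hx) (Or.inr ⟨hx', h2⟩)⟩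

theorem EE_nonneg {a A B : ℝ} (ha : 0 ≤ a) (hA : 0 ≤ A) (hB : 0 ≤ B) : 0 ≤ EE a A B := by
  unfold EE; positivity

theorem WW_nonneg {a B K : ℝ} (ha : 0 ≤ a) (hB : 0 ≤ B) (hK : 0 ≤ K) : 0 ≤ WW a B K := by
  unfold WW; positivity

theorem EE_mono {a A A' B : ℝ} (ha : 0 ≤ a) (hA : 0 ≤ A) (h : A ≤ A') (hB : 0 ≤ B) :
    EE a A B ≤ EE a A' B := by
  unfold EE; gcongr

end Crest.Agent.R12.HY
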