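import Crest.Agent.R12.HY.Defs

/-! Row 12, block HY: duality.  Squarefree rows, thin columns.  Prefix for helper lemmas: `hd_`. -/

set_option autoImplicit false

namespace Crest.Agent.R12.HY

open Crest.Agent.R17
open scoped ComplexConjugate

theorem hd_rpow {x M s : ℝ} (hx : 0 ≤ x) (hM : 0 ≤ M) (h : x ≤ 2 * M) (hs0 : 0 ≤ s) (hs : s ≤ 1) :
    x ^ s ≤ 2 * M ^ s := by
  calc x ^ s ≤ (2 * M) ^ s := Real.rpow_le_rpow hx h hs0
    _ = 2 ^ s * M ^ s := Real.mul_rpow (by norm_num) hM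
    _ ≤ 2 ^ (1 : ℝ) * M ^ s := by
      gcongr
      norm_num
    _ = _ := by rw [Real.rpow_one]

open Classical in
/-- the dual test vector -/
noncomputable def hd_b (S : Finset O) (d : O → ℂ) (j : O) : ℂ :=
  if j ∈ S then conj (d j) * conj (GG j) else 0

theorem hd_sum {J : ℝ} {S : Finset O} (hS : ∀ j ∈ S, PSq j ∧ J < nm j ∧ nm j ≤ 2 * J) {M : Type}
    [AddCommMonoid M] (f : O → M) (hf : ∀ j, j ∉ S → f j = 0) :
    ∑ j ∈ ball (2 * J), f j = ∑ j ∈ S, f j :=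
  (Finset.sum_subset (fun j hj => mem_ball.2 (hS j hj).2.2) fun j _ hj => hf j hj).symm

theorem hd_XG {J : ℝ} {S : Finset O} (hS : ∀ j ∈ S, PSq j ∧ J < nm j ∧ nm j ≤ 2 * J) (d : O → ℂ)
    {n : O} (hn : Prim n) : XG (hd_b S d) (2 * J) n = conj (∑ j ∈ S, d j * cb j n) := by
  unfold XG
  rw [hd_sum hS _ fun j hj => by simp [hd_b, hj], map_sum]
  refine Finset.sum_congr rfl fun j hj => ?_
  rw [hd_b, if_pos hj, map_mul, cb_recip hn (hS j hj).1.1, mul_assoc (conj (d j)),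
    mul_comm (conj (GG j)), GG_mul_conj (hS j hj).1, mul_one]

theorem hd_N2 {J : ℝ} {S : Finset O} (hS : ∀ j ∈ S, PSq j ∧ J < nm j ∧ nm j ≤ 2 * J) (d : O → ℂ) :
    N2 (hd_b S d) (2 * J) = ∑ j ∈ S, ‖d j‖ ^ 2 := by
  unfold N2
  rw [hd_sum hS _ fun j hj => by simp [hd_b, hj]]
  refine Finset.sum_congr rfl fun j hj => ?_
  rw [hd_b, if_pos hj, norm_mul, Complex.norm_conj, Complex.norm_conj, norm_GG (hS j hj).1, mul_one]

/-- `e = 1`.  Put `F j = ∑_n c n w n (j/n)`, `β j = F j · conj (GG j)` on `S`, `0` elsewhere (`Supp β J (2J)`,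
`N2 β (2J) = ∑ ‖F j‖²` by `norm_GG`).  For primary `n`: `XG β (2J) n = ∑_{j ∈ S} F j · conj (cb n j)`
(`GG_mul_conj`) and `cb n j = cb j n` (`cb_recip`), so
`∑ ‖F j‖² = ∑_n c n w n · conj (XG β (2J) n)`.  Cauchy–Schwarz (`Finset.sum_mul_sq_le_sq_mul_sq`, over the `n` with
`c n ≠ 0`), `w² ≤ w ≤ LW a M'' ·` with `M'' ∈ [max 1 M, 2M]` (`LW_clamp`, `one_le_nm`), `sum_le_EN`, `h2` with
`A := M''`, `B := J`, `N2d β ≤ C (2J)^ε N2 β` (`dn_pow_le 4`), `1 ≤ (2J)^ε ≤ (2J/a)^ε`.  So `T² ≤ N2 c · Δ · T` for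
`T = ∑ ‖F j‖²`.  (Or use `duality` of Base/Cube with rows `S`, columns `T = (ball X).filter (c · ≠ 0)` and the matrix
`LW a M' (N n) · cb j n`; then `β j = conj (d j) · conj (GG j)` for the test vector `d`.) -/
theorem dual_one (h2 : StL) {ε : ℝ} (hε : 0 < ε) : ∃ C : ℝ, 0 < C ∧
    ∀ (a M M' J X : ℝ) (S : Finset O) (c : O → ℂ), 0 < a → a ≤ 1 → 1 / 2 ≤ M → 0 < M' → 1 / 2 ≤ J →
    (∀ j ∈ S, PSq j ∧ J < nm j ∧ nm j ≤ 2 * J) → (∀ n, c n ≠ 0 → Prim n ∧ M < nm n ∧ nm n ≤ 2 * M) →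
    ∑ j ∈ S, ‖∑ n ∈ ball X, thn a M' c n * cb j n‖ ^ 2 ≤ C * (2 * J / a) ^ ε *
      ((a * M + √M) + a ^ (1 / 3 : ℝ) * M ^ (2 / 3 : ℝ) * J ^ (2 / 3 : ℝ) +
        (a⁻¹ + M ^ (1 / 3 : ℝ) * a ^ (-(1 / 3) : ℝ)) * J) * N2 c X := by
  classical
  obtain ⟨C₀, h0⟩ := h2 ε hε
  obtain ⟨C₁, hC₁, h1⟩ := dn_pow_le 4 hε
  refine ⟨(|C₀| + 1) * (2 * (1 + C₁)), by positivity, fun a M M' J X S c ha ha1 hM hM' hJ hS hc => ?_⟩
  have hM0 : 0 < M := by linarith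
  have hJ0 : 0 < J := by linarith
  obtain ⟨Y, hY1, hY2, hY⟩ := LW_clamp a (lo := max 1 M) (hi := 2 * M) (Y := M')
    (lt_max_of_lt_left one_pos) (max_le (by linarith) (by linarith)) hM'
  have hY3 : 1 ≤ Y := (le_max_left _ _).trans hY1
  have hY0 : 0 < Y := by linarith
  set T := (ball X).filter (fun n => c n ≠ 0) with hT
  have e1 : ∀ j, ∑ n ∈ ball X, thn a M' c n * cb j n =
      ∑ n ∈ T, c n * ((LW a M' (nm n) : ℂ) * cb j n) := by
    intro j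
    rw [hT, Finset.sum_filter]
    refine Finset.sum_congr rfl fun n _ => ?_
    split_ifs with h
    · rw [thn, mul_assoc]
    · simp [thn, not_not.1 h]
  have e2 : N2 c X = ∑ n ∈ T, ‖c n‖ ^ 2 := by
    rw [hT, Finset.sum_filter]
    refine Finset.sum_congr rfl fun n _ => ?_
    split_ifs with h
    · rfl
    · simp [not_not.1 h]
  simp only [e1]
  rw [e2]
  refine duality S T (fun j n => (LW a M' (nm n) : ℂ) * cb j n) (by positivity) (fun d => ?_) c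
  have hsupp : Supp (hd_b S d) J (2 * J) := fun b hb => hS b (by
    by_contra h
    exact hb (by simp [hd_b, h]))
  have k1 : ∑ n ∈ T, ‖∑ j ∈ S, d j * ((LW a M' (nm n) : ℂ) * cb j n)‖ ^ 2 ≤
      EN a Y (hd_b S d) (2 * J) := by
    refine le_trans (Finset.sum_le_sum fun n hn => ?_)
      (sum_le_EN ha hY0 _ _ (S := T) fun n hn => (hc n (Finset.mem_filter.1 hn).2).1)
    obtain ⟨p1, p2, p3⟩ := hc n (Finset.mem_filter.1 hn).2
    rw [hd_XG hS d p1, Complex.norm_conj]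
    have e : ∑ j ∈ S, d j * ((LW a M' (nm n) : ℂ) * cb j n) =
        (LW a M' (nm n) : ℂ) * ∑ j ∈ S, d j * cb j n := by
      rw [Finset.mul_sum]
      exact Finset.sum_congr rfl fun j _ => by ring
    rw [e, norm_mul, mul_pow, Complex.norm_real, Real.norm_of_nonneg (LW_pos _ _ _).le]
    refine mul_le_mul_of_nonneg_right ?_ (by positivity)
    have q1 := hY (nm n) (max_le (one_le_nm p1.ne_zero) p2.le) p3
    have q2 := LW_le_one a M' (nm n)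
    have q3 := LW_pos a M' (nm n)
    nlinarith
  have k2 := h0 a Y J _ ha ha1 hY3 hJ hsupp
  have z1 : 1 ≤ 2 * J / a := by rw [le_div_iff₀ ha]; linarith
  have z2 : 1 ≤ (2 * J / a) ^ ε := Real.one_le_rpow z1 hε.le
  have k3 : N2d (hd_b S d) (2 * J) ≤ C₁ * (2 * J / a) ^ ε * N2 (hd_b S d) (2 * J) := by
    unfold N2d N2
    rw [Finset.mul_sum]
    refine Finset.sum_le_sum fun b hb => ?_
    by_cases hb0 : hd_b S d b = 0
    · simp [hb0]
    rw [mul_comm]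
    refine mul_le_mul_of_nonneg_right ((h1 b (hsupp b hb0).1.ne_zero).trans ?_) (by positivity)
    have : nm b ≤ 2 * J / a := by
      refine (mem_ball.1 hb).trans ?_
      rw [le_div_iff₀ ha]; nlinarith
    have := nm_nonneg b
    gcongr
  rw [← hd_N2 hS d]
  have hN := N2_nonneg (hd_b S d) (2 * J)
  have hNd := N2d_nonneg (hd_b S d) (2 * J)
  generalize N2 (hd_b S d) (2 * J) = N at k2 k3 hN ⊢
  generalize N2d (hd_b S d) (2 * J) = Nd at k2 k3 hNd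
  generalize (2 * J / a) ^ ε = E at k2 k3 z2 ⊢
  have w1 : √Y ≤ 2 * √M := by
    rw [Real.sqrt_eq_rpow, Real.sqrt_eq_rpow]
    exact hd_rpow hY0.le hM0.le hY2 (by norm_num) (by norm_num)
  have w2 : Y ^ (2 / 3 : ℝ) ≤ 2 * M ^ (2 / 3 : ℝ) := hd_rpow hY0.le hM0.le hY2 (by norm_num) (by norm_num)
  have w3 : Y ^ (1 / 3 : ℝ) ≤ 2 * M ^ (1 / 3 : ℝ) := hd_rpow hY0.le hM0.le hY2 (by norm_num) (by norm_num)
  have t1 : (a * Y + √Y) * N ≤ 2 * (1 + C₁) * E * (a * M + √M) * N := by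
    refine mul_le_mul_of_nonneg_right ?_ hN
    calc a * Y + √Y ≤ 2 * 1 * 1 * (a * M + √M) := by nlinarith
      _ ≤ _ := by gcongr; linarith
  have t2 : a ^ (1 / 3 : ℝ) * (Y * J) ^ (2 / 3 : ℝ) * Nd ≤
      2 * (1 + C₁) * E * (a ^ (1 / 3 : ℝ) * M ^ (2 / 3 : ℝ) * J ^ (2 / 3 : ℝ)) * N := by
    rw [Real.mul_rpow hY0.le hJ0.le]
    calc _ ≤ a ^ (1 / 3 : ℝ) * (2 * M ^ (2 / 3 : ℝ) * J ^ (2 / 3 : ℝ)) * ((1 + C₁) * E * N) := by
          gcongr
          refine k3.trans ?_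
          gcongr
          linarith
      _ = _ := by ring
  have t3 : E * (J / a + Y ^ (1 / 3 : ℝ) * J * a ^ (-(1 / 3) : ℝ)) * N ≤
      2 * (1 + C₁) * E * ((a⁻¹ + M ^ (1 / 3 : ℝ) * a ^ (-(1 / 3) : ℝ)) * J) * N := by
    refine mul_le_mul_of_nonneg_right ?_ hN
    calc _ ≤ E * (2 * (J / a) + 2 * M ^ (1 / 3 : ℝ) * J * a ^ (-(1 / 3) : ℝ)) := by
          gcongr
          linarith [div_pos hJ0 ha]
      _ = 2 * 1 * E * ((a⁻¹ + M ^ (1 / 3 : ℝ) * a ^ (-(1 / 3) : ℝ)) * J) := by ring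
      _ ≤ _ := by gcongr; linarith
  refine k1.trans (k2.trans ?_)
  calc _ ≤ (|C₀| + 1) * ((a * Y + √Y) * N + a ^ (1 / 3 : ℝ) * (Y * J) ^ (2 / 3 : ℝ) * Nd +
        E * (J / a + Y ^ (1 / 3 : ℝ) * J * a ^ (-(1 / 3) : ℝ)) * N) :=
        mul_le_mul_of_nonneg_right (by linarith [le_abs_self C₀]) (by positivity)
    _ ≤ _ := (mul_le_mul_of_nonneg_left (add_le_add (add_le_add t1 t2) t3) (by positivity)).trans
        (le_of_eq (by ring))

/-- rows `r j^e`: `cb (r j^e) n = cb r n · cb j n ^ e`, absorb `cb r n` in `c` (`norm_cb_le`); for `e = 2`,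
`cb j n ^ 2 = conj (cb j n)` (`conj_cb`): conjugate the inner sum and use `conj (c n · cb r n)`. -/
theorem dual_sq (h2 : StL) {ε : ℝ} (hε : 0 < ε) : ∃ C : ℝ, 0 < C ∧
    ∀ (a M M' J X : ℝ) (e : ℕ) (r : O) (S : Finset O) (c : O → ℂ), 0 < a → a ≤ 1 → 1 / 2 ≤ M → 0 < M' →
    1 / 2 ≤ J → (e = 1 ∨ e = 2) →
    (∀ j ∈ S, PSq j ∧ J < nm j ∧ nm j ≤ 2 * J) → (∀ n, c n ≠ 0 → Prim n ∧ M < nm n ∧ nm n ≤ 2 * M) →
    ∑ j ∈ S, ‖∑ n ∈ ball X, thn a M' c n * cb (r * j ^ e) n‖ ^ 2 ≤ C * (2 * J / a) ^ ε *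
      ((a * M + √M) + a ^ (1 / 3 : ℝ) * M ^ (2 / 3 : ℝ) * J ^ (2 / 3 : ℝ) +
        (a⁻¹ + M ^ (1 / 3 : ℝ) * a ^ (-(1 / 3) : ℝ)) * J) * N2 c X := by
  obtain ⟨C, hC, h⟩ := dual_one h2 hε
  refine ⟨C, hC, fun a M M' J X e r S c ha ha1 hM hM' hJ he hS hc => ?_⟩
  have hM0 : 0 < M := by linarith
  have hJ0 : 0 < J := by linarith
  have hN : N2 (fun n => c n * cb r n) X ≤ N2 c X := Finset.sum_le_sum fun n _ => by
    rw [norm_mul]
    exact pow_le_pow_left₀ (by positivity) (mul_le_of_le_one_right (norm_nonneg _) (norm_cb_le _ _)) 2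
  rcases he with rfl | rfl
  · refine le_trans (le_of_eq ?_) ((h a M M' J X S (fun n => c n * cb r n) ha ha1 hM hM' hJ hS
      fun n hn => hc n (left_ne_zero_of_mul hn)).trans (mul_le_mul_of_nonneg_left hN (by positivity)))
    refine Finset.sum_congr rfl fun j _ => ?_
    congr 2
    refine Finset.sum_congr rfl fun n _ => ?_
    rw [pow_one, cb_mul_left, thn, thn]
    ring
  · have hN' : N2 (fun n => conj (c n * cb r n)) X ≤ N2 c X := by
      refine le_trans (le_of_eq ?_) hN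
      simp only [N2, Complex.norm_conj]
    refine le_trans (le_of_eq ?_) ((h a M M' J X S (fun n => conj (c n * cb r n)) ha ha1 hM hM' hJ hS
      fun n hn => hc n fun h0 => hn (by simp [h0])).trans
        (mul_le_mul_of_nonneg_left hN' (by positivity)))
    refine Finset.sum_congr rfl fun j _ => ?_
    rw [← Complex.norm_conj, map_sum]
    congr 2
    refine Finset.sum_congr rfl fun n _ => ?_
    rw [cb_mul_left, cb_pow_left _ _ two_ne_zero, ← conj_cb, thn, thn]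
    simp only [map_mul, Complex.conj_ofReal, Complex.conj_conj]
    ring

end Crest.Agent.R12.HY
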