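import Crest.Agent.R12.HY.Defs

/-! Row 12, block HY: from squarefree rows to all rows (combinatorics only).
Prefix for helper lemmas: `hr_`. -/

set_option autoImplicit false

namespace Crest.Agent.R12.HY

open Crest.Agent.R17
open scoped ComplexConjugate

/-- `(y z)³ ≤ U`, `x² (y z)³ ≤ U²`, `x y z ≤ U` -/
theorem box_size {x y z U : ℝ} (hy : 1 ≤ y) (hxy : y ≤ x) (hz : 1 ≤ z)
    (h : x * y ^ 2 * z ^ 3 ≤ U ∨ x ^ 2 * y * z ^ 3 ≤ U) :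
    x ≤ U ∧ y * z ≤ U ^ (1 / 3 : ℝ) ∧ y * z * x ^ (2 / 3 : ℝ) ≤ U ^ (2 / 3 : ℝ) ∧ y * z * x ≤ U := by
  have hx : 1 ≤ x := hy.trans hxy
  have h1 : x * y ^ 2 * z ^ 3 ≤ U := h.elim id fun h => le_trans (by
    rw [show x * y ^ 2 * z ^ 3 = x * y * y * z ^ 3 by ring, show x ^ 2 * y = x * x * y by ring]
    gcongr) h
  have h2 : y * z * x ≤ U := le_trans (by
    rw [show x * y ^ 2 * z ^ 3 = y * z * x * (y * z ^ 2) by ring]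
    exact le_mul_of_one_le_right (by positivity) (one_le_mul_of_one_le_of_one_le hy (one_le_pow₀ hz))) h1
  have h3 : (y * z) ^ 3 ≤ U := le_trans (by
    rw [show (y * z) ^ 3 = y * y ^ 2 * z ^ 3 by ring]
    gcongr) h1
  have h4 : x ≤ U := le_trans
    (le_mul_of_one_le_left (by positivity) (one_le_mul_of_one_le_of_one_le hy hz)) h2
  have hU : 0 ≤ U := by linarith
  have key : ∀ {s t : ℝ}, 0 ≤ s → 0 ≤ t → s ^ 3 ≤ t → s ≤ t ^ (1 / 3 : ℝ) := fun hs ht h => by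
    rw [one_div, Real.le_rpow_inv_iff_of_pos hs ht (by norm_num)]
    exact_mod_cast h
  have e : ∀ {s : ℝ}, 0 ≤ s → s ^ (2 / 3 : ℝ) = (s ^ 2) ^ (1 / 3 : ℝ) := fun hs => by
    rw [← Real.rpow_natCast_mul hs]
    norm_num
  refine ⟨h4, key (by positivity) hU h3, ?_, h2⟩
  rw [e hU]
  refine key (by positivity) (by positivity) (le_trans ?_ (pow_le_pow_left₀ (by positivity) h1 2))
  rw [mul_pow, ← Real.rpow_mul_natCast (by positivity), show (2 / 3 : ℝ) * (3 : ℕ) = (2 : ℕ) by norm_num,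
    Real.rpow_natCast, show (x * y ^ 2 * z ^ 3) ^ 2 = (y * z) ^ 3 * x ^ 2 * (y * z ^ 3) by ring]
  exact le_mul_of_one_le_right (by positivity) (one_le_mul_of_one_le_of_one_le hy (one_le_pow₀ hz))

/-- `Finset.sum_fiberwise_of_maps_to` over `t.2 ∈ (ball y).erase 0 ×ˢ (ball z).erase 0` (`card_le_of_nm_le`); on a
fibre `t ↦ t.1` is injective (`Finset.sum_image`) -/
theorem sum_fib_le (F : O → O → O → ℝ) {T : Finset (O × O × O)} {y z D : ℝ} (hy : 0 ≤ y) (hz : 0 ≤ z) (hD : 0 ≤ D)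
    (Q : O → Prop) (hT : ∀ t ∈ T, Q t.1 ∧ (t.2.1 ≠ 0 ∧ nm t.2.1 ≤ y) ∧ (t.2.2 ≠ 0 ∧ nm t.2.2 ≤ z))
    (h : ∀ (v w : O) (S' : Finset O), (∀ j ∈ S', Q j) → ∑ j ∈ S', F j v w ≤ D) :
    ∑ t ∈ T, F t.1 t.2.1 t.2.2 ≤ 121 * y * z * D := by
  classical
  have h1 : ∀ {x : ℝ}, 0 ≤ x → (((ball x).erase 0).card : ℝ) ≤ 11 * x := fun hx =>
    card_le_of_nm_le hx fun n hn => ⟨(Finset.mem_erase.1 hn).1, mem_ball.1 (Finset.mem_erase.1 hn).2⟩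
  rw [← Finset.sum_fiberwise_of_maps_to (t := (ball y).erase 0 ×ˢ (ball z).erase 0) (g := Prod.snd)
    fun t ht => Finset.mem_product.2
      ⟨Finset.mem_erase.2 ⟨(hT t ht).2.1.1, mem_ball.2 (hT t ht).2.1.2⟩,
        Finset.mem_erase.2 ⟨(hT t ht).2.2.1, mem_ball.2 (hT t ht).2.2.2⟩⟩]
  refine (Finset.sum_le_card_nsmul _ _ D fun p _ => ?_).trans ?_
  · refine le_of_eq_of_le ?_ (h p.1 p.2 ((T.filter fun t => t.2 = p).image Prod.fst) fun j hj => ?_)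
    · rw [Finset.sum_image fun t ht t' ht' e => Prod.ext e
        ((Finset.mem_filter.1 ht).2.trans (Finset.mem_filter.1 ht').2.symm)]
      exact Finset.sum_congr rfl fun t ht => by rw [(Finset.mem_filter.1 ht).2]
    · obtain ⟨t, ht, rfl⟩ := Finset.mem_image.1 hj
      exact (hT t (Finset.mem_filter.1 ht).1).1
  · rw [nsmul_eq_mul, Finset.card_product, Nat.cast_mul,
      show 121 * y * z * D = 11 * y * (11 * z) * D by ring]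
    gcongr
    exacts [h1 hy, h1 hz]

theorem hr_box (F : O → O → O → ℝ) {T : Finset (O × O × O)} {U D₀ D₁ D₂ : ℝ} (h₀ : 0 ≤ D₀) (h₁ : 0 ≤ D₁)
    (h₂ : 0 ≤ D₂) {a b c : ℕ} (hab : b ≤ a)
    (hs : (2 : ℝ) ^ a * (2 ^ b) ^ 2 * (2 ^ c) ^ 3 ≤ U ∨ ((2 : ℝ) ^ a) ^ 2 * 2 ^ b * (2 ^ c) ^ 3 ≤ U)
    (hT : ∀ t ∈ T, PSq t.1 ∧ ((2 : ℝ) ^ a ≤ nm t.1 ∧ nm t.1 < 2 * 2 ^ a) ∧
      ((2 : ℝ) ^ b ≤ nm t.2.1 ∧ nm t.2.1 < 2 * 2 ^ b) ∧ ((2 : ℝ) ^ c ≤ nm t.2.2 ∧ nm t.2.2 < 2 * 2 ^ c))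
    (h : ∀ (J : ℝ) (v w : O) (S' : Finset O), 1 / 2 ≤ J → J ≤ U →
      (∀ j ∈ S', PSq j ∧ J < nm j ∧ nm j ≤ 2 * J) → ∑ j ∈ S', F j v w ≤ D₀ + D₁ * J ^ (2 / 3 : ℝ) + D₂ * J) :
    ∑ t ∈ T, F t.1 t.2.1 t.2.2 ≤ 484 * (D₀ * U ^ (1 / 3 : ℝ) + D₁ * U ^ (2 / 3 : ℝ) + D₂ * U) := by
  have ha : (1 : ℝ) ≤ 2 ^ a := one_le_pow₀ one_le_two
  obtain ⟨b1, b2, b3, b4⟩ := box_size (one_le_pow₀ one_le_two) (pow_le_pow_right₀ one_le_two hab)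
    (one_le_pow₀ one_le_two) hs
  have hJ : (0 : ℝ) ≤ 2 ^ a - 1 / 2 := by linarith
  have hne : ∀ {n : O} {i : ℕ}, (2 : ℝ) ^ i ≤ nm n → n ≠ 0 := fun h3 h4 => by
    rw [h4, nm_zero] at h3
    exact absurd h3 (not_le.2 (by positivity))
  refine (sum_fib_le F (y := 2 * 2 ^ b) (z := 2 * 2 ^ c)
    (D := D₀ + D₁ * (2 ^ a) ^ (2 / 3 : ℝ) + D₂ * 2 ^ a) (by positivity) (by positivity) (by positivity)
    (fun j => PSq j ∧ 2 ^ a - 1 / 2 < nm j ∧ nm j ≤ 2 * (2 ^ a - 1 / 2)) (fun t ht => ?_)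
    fun v w S' h3 => (h _ v w S' (by linarith) (by linarith) h3).trans ?_).trans ?_
  · obtain ⟨h3, ⟨h4, h5⟩, h6, h7⟩ := hT t ht
    refine ⟨⟨h3, by linarith, ?_⟩, ⟨hne h6.1, h6.2.le⟩, hne h7.1, h7.2.le⟩
    have h8 : nN t.1 + 1 ≤ 2 * 2 ^ a := by
      unfold nm at h5
      exact_mod_cast h5
    have h9 : nm t.1 + 1 ≤ 2 * 2 ^ a := by
      unfold nm
      exact_mod_cast h8
    linarith
  · gcongr <;> linarith
  · have e1 := mul_le_mul_of_nonneg_left b2 h₀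
    have e2 := mul_le_mul_of_nonneg_left b3 h₁
    have e3 := mul_le_mul_of_nonneg_left b4 h₂
    linarith

/-- `sum_rows_le` (Base/Cube) with the constant majorant `484 (D₀ U^(1/3) + D₁ U^(2/3) + D₂ U)` and
`N = Nat.log 2 ⌊U⌋₊ + 1`, `N³ ≤ C U^ε` (`Real.log_le_rpow_div`).  In a non-empty box `(a, b, c)`:
`2^a (2^b)² (2^c)³ ≤ U`.  If `b ≤ a` the variable is `k₁` (`e = 1`, `r = u k₂² m³`), else `k₂` (`e = 2`, `r = u k₁ m³`;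
reindex `T` by swapping the first two coordinates); `sum_fib_le` with `J = 2^max - 1/2` (norms are integers, so
`2^a ≤ N j < 2 · 2^a` gives `J < N j ≤ 2J`), `J ≤ 2^max ≤ U`, `box_size`. -/
theorem rows_reduce {ε : ℝ} (hε : 0 < ε) : ∃ C : ℝ, 0 < C ∧
    ∀ (U D₀ D₁ D₂ : ℝ) (G : O → ℝ) (S : Finset O), 1 ≤ U → 0 ≤ D₀ → 0 ≤ D₁ → 0 ≤ D₂ → (∀ k, 0 ≤ G k) →
    (∀ k ∈ S, k ≠ 0 ∧ nm k ≤ U) →
    (∀ (J : ℝ) (e : ℕ) (r : O) (S' : Finset O), 1 / 2 ≤ J → J ≤ U → (e = 1 ∨ e = 2) →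
      (∀ j ∈ S', PSq j ∧ J < nm j ∧ nm j ≤ 2 * J) →
      ∑ j ∈ S', G (r * j ^ e) ≤ D₀ + D₁ * J ^ (2 / 3 : ℝ) + D₂ * J) →
    ∑ k ∈ S, G k ≤ C * U ^ ε * (D₀ * U ^ (1 / 3 : ℝ) + D₁ * U ^ (2 / 3 : ℝ) + D₂ * U) := by
  refine ⟨9 * 484 * ((ε / 3 * Real.log 2)⁻¹ + 1) ^ 3, by have := Real.log_pos one_lt_two; positivity,
    fun U D₀ D₁ D₂ G S hU h₀ h₁ h₂ hG hS h => ?_⟩
  have hW : 0 ≤ 484 * (D₀ * U ^ (1 / 3 : ℝ) + D₁ * U ^ (2 / 3 : ℝ) + D₂ * U) := by positivity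
  have hN : U < 2 ^ (Nat.log 2 ⌊U⌋₊ + 1) := (Nat.lt_floor_add_one U).trans_le (by
    exact_mod_cast Nat.lt_pow_succ_log_self one_lt_two ⌊U⌋₊)
  refine (sum_rows_le G hG hS hN (fun _ _ _ _ => 484 * (D₀ * U ^ (1 / 3 : ℝ) + D₁ * U ^ (2 / 3 : ℝ) + D₂ * U))
    fun u a b c T hu _ _ _ hT => ?_).trans ?_
  · rcases T.eq_empty_or_nonempty with rfl | ⟨t, ht⟩
    · exact hW
    have hs : (2 : ℝ) ^ a * (2 ^ b) ^ 2 * (2 ^ c) ^ 3 ≤ U := by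
      obtain ⟨-, -, -, ⟨h3, -⟩, ⟨h4, -⟩, ⟨h5, -⟩, h6⟩ := hT t ht
      refine le_trans ?_ (hS _ h6).2
      have h7 := (nm_U9 hu).1
      have h8 := nm_nonneg t.1
      rw [nm_mul, nm_mul, nm_mul, nm_pow, nm_pow, ← one_mul ((2 : ℝ) ^ a)]
      gcongr
    rcases le_total b a with hab | hab
    · refine le_of_eq_of_le ?_ (hr_box (fun j v w => G (u * v ^ 2 * w ^ 3 * j ^ 1)) h₀ h₁ h₂ hab (Or.inl hs)
        (fun t ht => ⟨(hT t ht).1, (hT t ht).2.2.2.1, (hT t ht).2.2.2.2.1, (hT t ht).2.2.2.2.2.1⟩)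
        fun J v w S' h3 h4 h5 => h J 1 _ S' h3 h4 (Or.inl rfl) h5)
      exact Finset.sum_congr rfl fun t _ => congrArg G (by ring)
    · refine le_of_eq_of_le ?_ (hr_box (T := T.map ⟨fun t => (t.2.1, t.1, t.2.2), ?_⟩)
        (fun j v w => G (u * v * w ^ 3 * j ^ 2)) h₀ h₁ h₂ hab (Or.inr (by linarith))
        (fun t ht => ?_) fun J v w S' h3 h4 h5 => h J 2 _ S' h3 h4 (Or.inr rfl) h5)
      · rw [Finset.sum_map]
        exact Finset.sum_congr rfl fun t _ => congrArg G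
          (show _ = u * t.1 * t.2.2 ^ 3 * t.2.1 ^ 2 by ring)
      · rintro ⟨x, y, z⟩ ⟨x', y', z'⟩ e
        simp only [Prod.mk.injEq] at e ⊢
        exact ⟨e.2.1, e.1, e.2.2⟩
      · obtain ⟨t', ht', rfl⟩ := Finset.mem_map.1 ht
        obtain ⟨-, h3, -, h4, h5, h6, -⟩ := hT t' ht'
        exact ⟨h3, h5, h4, h6⟩
  · have h3 : ((Nat.log 2 ⌊U⌋₊ + 1 : ℕ) : ℝ) ≤ ((ε / 3 * Real.log 2)⁻¹ + 1) * U ^ (ε / 3) := by
      have h4 := Real.log_le_log (by positivity) (cta_pow_le hU)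
      have h5 := Real.log_le_rpow_div (zero_le_one.trans hU) (show 0 < ε / 3 by positivity)
      have h6 := Real.log_pos one_lt_two
      rw [Real.log_pow, ← le_div_iff₀ h6] at h4
      rw [Nat.cast_add_one, add_mul, one_mul]
      refine add_le_add (h4.trans ((div_le_div_of_nonneg_right h5 h6.le).trans_eq ?_))
        (Real.one_le_rpow hU (by positivity))
      rw [div_div, div_eq_inv_mul]
    have h4 := pow_le_pow_left₀ (Nat.cast_nonneg _) h3 3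
    rw [mul_pow, ← Real.rpow_mul_natCast (zero_le_one.trans hU), Nat.cast_ofNat,
      div_mul_cancel₀ _ three_ne_zero] at h4
    have h5 : (U9.card : ℝ) ≤ 9 := by exact_mod_cast card_U9_le
    simp only [Finset.sum_const, Finset.card_range, nsmul_eq_mul]
    calc _ = U9.card * ((Nat.log 2 ⌊U⌋₊ + 1 : ℕ) : ℝ) ^ 3 *
          (484 * (D₀ * U ^ (1 / 3 : ℝ) + D₁ * U ^ (2 / 3 : ℝ) + D₂ * U)) := by ring
      _ ≤ 9 * (((ε / 3 * Real.log 2)⁻¹ + 1) ^ 3 * U ^ ε) *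
          (484 * (D₀ * U ^ (1 / 3 : ℝ) + D₁ * U ^ (2 / 3 : ℝ) + D₂ * U)) := by gcongr
      _ = _ := by ring

end Crest.Agent.R12.HY
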