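import Crest.Agent.R12.HY.Dual
import Crest.Agent.R12.HY.Rows

/-! Row 12, block HY: the energy over a dyadic range of rows for thin columns.
Prefix for helper lemmas: `he_`. -/

set_option autoImplicit false

namespace Crest.Agent.R12.HY

open Crest.Agent.R17
open scoped ComplexConjugate

/-- `rows_reduce` + `dual_sq` (both with `ε/2`; `(2J/a)^(ε/2) ≤ 2^(ε/2) (U/a)^(ε/2)`, `U^(ε/2) ≤ (U/a)^(ε/2)`) -/
theorem rows_thin (h2 : StL) {ε : ℝ} (hε : 0 < ε) : ∃ C : ℝ, 0 < C ∧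
    ∀ (a M M' U X : ℝ) (S : Finset O) (c : O → ℂ), 0 < a → a ≤ 1 → 1 / 2 ≤ M → 0 < M' → 1 ≤ U →
    (∀ k ∈ S, k ≠ 0 ∧ nm k ≤ U) → (∀ n, c n ≠ 0 → Prim n ∧ M < nm n ∧ nm n ≤ 2 * M) →
    ∑ k ∈ S, ‖∑ n ∈ ball X, thn a M' c n * cb k n‖ ^ 2 ≤ C * (U / a) ^ ε * WW a M U * N2 c X := by
  have hε2 : 0 < ε / 2 := by positivity
  obtain ⟨C1, hC1, h1⟩ := rows_reduce hε2
  obtain ⟨C2, hC2, h3⟩ := dual_sq h2 hε2
  refine ⟨C1 * C2 * 2 ^ (ε / 2), by positivity, ?_⟩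
  intro a M M' U X S c ha ha1 hM hM' hU hS hc
  have hN : 0 ≤ N2 c X := Finset.sum_nonneg fun _ _ => by positivity
  have hM0 : 0 < M := by linarith
  have hU0 : 0 < U := by linarith
  set E : ℝ := C2 * (2 * U / a) ^ (ε / 2) * N2 c X with hE
  have hE0 : 0 ≤ E := by positivity
  have key := h1 U (E * (a * M + √M)) (E * (a ^ (1 / 3 : ℝ) * M ^ (2 / 3 : ℝ)))
    (E * (a⁻¹ + M ^ (1 / 3 : ℝ) * a ^ (-(1 / 3) : ℝ)))
    (fun k => ‖∑ n ∈ ball X, thn a M' c n * cb k n‖ ^ 2) S hU (by positivity) (by positivity)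
    (by positivity) (fun k => by positivity) hS (by
      intro J e r S' hJ hJU he hS'
      have hJ0 : 0 < J := by linarith
      refine (h3 a M M' J X e r S' c ha ha1 hM hM' hJ he hS' hc).trans ?_
      have h4 : (2 * J / a) ^ (ε / 2) ≤ (2 * U / a) ^ (ε / 2) := by gcongr
      calc C2 * (2 * J / a) ^ (ε / 2) *
            ((a * M + √M) + a ^ (1 / 3 : ℝ) * M ^ (2 / 3 : ℝ) * J ^ (2 / 3 : ℝ) +
              (a⁻¹ + M ^ (1 / 3 : ℝ) * a ^ (-(1 / 3) : ℝ)) * J) * N2 c X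
          ≤ C2 * (2 * U / a) ^ (ε / 2) *
            ((a * M + √M) + a ^ (1 / 3 : ℝ) * M ^ (2 / 3 : ℝ) * J ^ (2 / 3 : ℝ) +
              (a⁻¹ + M ^ (1 / 3 : ℝ) * a ^ (-(1 / 3) : ℝ)) * J) * N2 c X := by gcongr
        _ = _ := by rw [hE]; ring)
  refine key.trans ?_
  have hUa : U ≤ U / a := by
    rw [le_div_iff₀ ha]; nlinarith
  have h5 : U ^ (ε / 2) ≤ (U / a) ^ (ε / 2) := by gcongr
  have h6 : (2 * U / a) ^ (ε / 2) = 2 ^ (ε / 2) * (U / a) ^ (ε / 2) := by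
    rw [mul_div_assoc, Real.mul_rpow (by norm_num) (by positivity)]
  have h7 : (U / a) ^ ε = (U / a) ^ (ε / 2) * (U / a) ^ (ε / 2) := by
    rw [← Real.rpow_add (by positivity)]; congr 1; ring
  have hW : 0 ≤ WW a M U := WW_nonneg ha.le hM0.le hU0.le
  calc C1 * U ^ (ε / 2) * (E * (a * M + √M) * U ^ (1 / 3 : ℝ) +
        E * (a ^ (1 / 3 : ℝ) * M ^ (2 / 3 : ℝ)) * U ^ (2 / 3 : ℝ) +
        E * (a⁻¹ + M ^ (1 / 3 : ℝ) * a ^ (-(1 / 3) : ℝ)) * U)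
      = C1 * U ^ (ε / 2) * E * WW a M U := by unfold WW; ring
    _ ≤ C1 * (U / a) ^ (ε / 2) * E * WW a M U := by gcongr
    _ = _ := by rw [hE, h6, h7]; ring

theorem he_mid {r s t u : ℝ} (hr : 0 < r) (h1 : s ≤ t) (h2 : t ≤ u) : r ^ t ≤ r ^ s + r ^ u := by
  rcases le_total r 1 with h | h
  · have := Real.rpow_le_rpow_of_exponent_ge hr h h1
    have := Real.rpow_nonneg hr.le u
    linarith
  · have := Real.rpow_le_rpow_of_exponent_le h h2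
    have := Real.rpow_nonneg hr.le s
    linarith

/-- With `r = U/K`: `(U/a)^ε U^θ = (K/a)^ε K^θ r^(θ+ε)`, `r^(1/3+ε) ≤ r^(1/3) + r^(1/2)`,
`r^(θ+ε) ≤ r^(1/2) + r^(5/2)` for `θ = 2/3, 1`; `a M + √M ≤ L^(-1/3) (a B + √B)` for `M = B/L`, `1 ≤ L`. -/
theorem WW_split {a B K U L ε : ℝ} (ha : 0 < a) (hB : 0 < B) (hK : 0 < K) (hU : 0 < U) (hL : 1 ≤ L)
    (hε : 0 ≤ ε) (hε' : ε ≤ 1 / 6) :
    (U / a) ^ ε * WW a (B / L) U ≤ (K / a) ^ ε * (L ^ (-(1 / 3) : ℝ) * WW a B K * (U / K) ^ (1 / 3 : ℝ) +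
      WW a B K * ((U / K) ^ (1 / 2 : ℝ) + (U / K) ^ (5 / 2 : ℝ))) := by
  obtain ⟨r, hr, rfl⟩ : ∃ r : ℝ, 0 < r ∧ U = K * r := ⟨U / K, by positivity, by field_simp⟩
  have hL0 : 0 < L := by linarith
  have e0 : K * r / K = r := by field_simp
  have e1 : (K * r / a) ^ ε = (K / a) ^ ε * r ^ ε := by
    rw [← Real.mul_rpow (by positivity) hr.le]; congr 1; ring
  have e2 : ∀ θ : ℝ, (K * r) ^ θ = K ^ θ * r ^ θ := fun θ => Real.mul_rpow hK.le hr.le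
  rw [e0, e1, mul_assoc]
  refine mul_le_mul_of_nonneg_left ?_ (by positivity)
  set l : ℝ := L ^ (-(1 / 3) : ℝ) with hl
  have hl0 : 0 < l := by positivity
  have hl1 : l ≤ 1 := Real.rpow_le_one_of_one_le_of_nonpos hL (by norm_num)
  have hBL : B / L ≤ B := div_le_self hB.le hL
  have g1 : L⁻¹ ≤ l := by
    rw [← Real.rpow_neg_one]
    exact Real.rpow_le_rpow_of_exponent_le hL (by norm_num)
  have g2 : √(B / L) ≤ l * √B := by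
    rw [Real.sqrt_div hB.le, div_eq_inv_mul]
    gcongr
    rw [Real.sqrt_eq_rpow, ← Real.rpow_neg hL0.le]
    exact Real.rpow_le_rpow_of_exponent_le hL (by norm_num)
  have g3 : a * (B / L) + √(B / L) ≤ l * (a * B + √B) := by
    have : a * (B / L) ≤ l * (a * B) := by
      calc a * (B / L) = L⁻¹ * (a * B) := by field_simp
        _ ≤ l * (a * B) := by gcongr
    linarith
  have m1 : r ^ ε * r ^ (1 / 3 : ℝ) ≤ r ^ (1 / 3 : ℝ) + r ^ (1 / 2 : ℝ) := by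
    rw [← Real.rpow_add hr]; exact he_mid hr (by linarith) (by linarith)
  have m2 : r ^ ε * r ^ (2 / 3 : ℝ) ≤ r ^ (1 / 2 : ℝ) + r ^ (5 / 2 : ℝ) := by
    rw [← Real.rpow_add hr]; exact he_mid hr (by linarith) (by linarith)
  have m3 : r ^ ε * r ≤ r ^ (1 / 2 : ℝ) + r ^ (5 / 2 : ℝ) := by
    rw [← Real.rpow_add_one hr.ne']; exact he_mid hr (by linarith) (by linarith)
  set T0 : ℝ := (a * B + √B) * K ^ (1 / 3 : ℝ) with hT0
  set T1 : ℝ := a ^ (1 / 3 : ℝ) * B ^ (2 / 3 : ℝ) * K ^ (2 / 3 : ℝ) with hT1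
  set T2 : ℝ := (a⁻¹ + B ^ (1 / 3 : ℝ) * a ^ (-(1 / 3) : ℝ)) * K with hT2
  have hT0' : 0 ≤ T0 := by positivity
  have hT1' : 0 ≤ T1 := by positivity
  have hT2' : 0 ≤ T2 := by positivity
  have hW : WW a B K = T0 + T1 + T2 := rfl
  have p1 : 0 ≤ r ^ (1 / 3 : ℝ) := by positivity
  have p2 : 0 ≤ r ^ (1 / 2 : ℝ) := by positivity
  have p3 : 0 ≤ r ^ (5 / 2 : ℝ) := by positivity
  have s0 : WW a (B / L) (K * r) ≤ l * T0 * r ^ (1 / 3 : ℝ) + T1 * r ^ (2 / 3 : ℝ) + T2 * r := by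
    unfold WW
    rw [e2, e2]
    calc (a * (B / L) + √(B / L)) * (K ^ (1 / 3 : ℝ) * r ^ (1 / 3 : ℝ)) +
          a ^ (1 / 3 : ℝ) * (B / L) ^ (2 / 3 : ℝ) * (K ^ (2 / 3 : ℝ) * r ^ (2 / 3 : ℝ)) +
          (a⁻¹ + (B / L) ^ (1 / 3 : ℝ) * a ^ (-(1 / 3) : ℝ)) * (K * r)
        ≤ (l * (a * B + √B)) * (K ^ (1 / 3 : ℝ) * r ^ (1 / 3 : ℝ)) +
          a ^ (1 / 3 : ℝ) * B ^ (2 / 3 : ℝ) * (K ^ (2 / 3 : ℝ) * r ^ (2 / 3 : ℝ)) +
          (a⁻¹ + B ^ (1 / 3 : ℝ) * a ^ (-(1 / 3) : ℝ)) * (K * r) := by gcongr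
      _ = _ := by rw [hT0, hT1, hT2]; ring
  have q0 : l * T0 * (r ^ ε * r ^ (1 / 3 : ℝ)) ≤ l * T0 * r ^ (1 / 3 : ℝ) + T0 * r ^ (1 / 2 : ℝ) := by
    calc l * T0 * (r ^ ε * r ^ (1 / 3 : ℝ)) ≤ l * T0 * (r ^ (1 / 3 : ℝ) + r ^ (1 / 2 : ℝ)) := by gcongr
      _ = l * T0 * r ^ (1 / 3 : ℝ) + l * (T0 * r ^ (1 / 2 : ℝ)) := by ring
      _ ≤ l * T0 * r ^ (1 / 3 : ℝ) + 1 * (T0 * r ^ (1 / 2 : ℝ)) := by gcongr
      _ = _ := by ring
  have q1 : T1 * (r ^ ε * r ^ (2 / 3 : ℝ)) ≤ T1 * (r ^ (1 / 2 : ℝ) + r ^ (5 / 2 : ℝ)) := by gcongr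
  have q2 : T2 * (r ^ ε * r) ≤ T2 * (r ^ (1 / 2 : ℝ) + r ^ (5 / 2 : ℝ)) := by gcongr
  have q3 : 0 ≤ l * (T1 + T2) * r ^ (1 / 3 : ℝ) := by positivity
  have q4 : 0 ≤ T0 * r ^ (5 / 2 : ℝ) := by positivity
  calc r ^ ε * WW a (B / L) (K * r)
      ≤ r ^ ε * (l * T0 * r ^ (1 / 3 : ℝ) + T1 * r ^ (2 / 3 : ℝ) + T2 * r) := by gcongr
    _ = l * T0 * (r ^ ε * r ^ (1 / 3 : ℝ)) + T1 * (r ^ ε * r ^ (2 / 3 : ℝ)) + T2 * (r ^ ε * r) := by ring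
    _ ≤ _ := by rw [hW]; nlinarith

/-- `RS (thn a B' γ) (2B) B l h k z = ∑_n thn a (B'/N l) c n · cb k n` with
`c n = γ (l n) · cb h n · (N(l n)/B)^z` (`LW_mul_arg`, `nm_mul`, `cb_mul_left`), `‖c n‖ ≤ 8 ‖γ (l n)‖`
(`N(l n)/B ∈ (1, 2]`, `|Re z| ≤ 3`, `Complex.norm_cpow_eq_rpow_re_of_pos`), `M = B / N l ≥ 1/2`; `rows_thin` with
`min (ε/3) (1/6)`, `WW_split`, `K/a ≤ Z³`. -/
theorem rowBd_thin (h2 : StL) {ε : ℝ} (hε : 0 < ε) : ∃ C : ℝ, 0 < C ∧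
    ∀ (Z a B B' K : ℝ) (γ : O → ℂ), 1 ≤ Z → Z⁻¹ ≤ a → a ≤ 1 → 0 < B → 0 < B' → 0 < K → K ≤ Z ^ 2 →
    Supp γ B (2 * B) →
    RowBd (fun _ => True) (thn a B' γ) (2 * B) B K 0
      (fun l => C * Z ^ ε * (nm l ^ (-(1 / 3) : ℝ) * WW a B K) * ∑ n ∈ ball (2 * B), ‖γ (l * n)‖ ^ 2)
      (fun l => C * Z ^ ε * WW a B K * ∑ n ∈ ball (2 * B), ‖γ (l * n)‖ ^ 2) := by
  have hε₀ : 0 < min (ε / 3) (1 / 6) := lt_min (by positivity) (by norm_num)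
  obtain ⟨C, hC, H⟩ := rows_thin h2 hε₀
  refine ⟨64 * C, by positivity, fun Z a B B' K γ hZ hZa ha hB hB' hK hKZ hγ l h U z S hl hlB _ _ hU
    hz hS => ?_⟩
  have ha0 : 0 < a := (inv_pos.2 (by linarith)).trans_le hZa
  have hL := one_le_nm hl.ne_zero
  have hL0 : 0 < nm l := by linarith
  have h1 := H a (B / nm l) (B' / nm l) U (2 * B) S
    (fun n => γ (l * n) * cb h n * ((nm (l * n) / B : ℝ) : ℂ) ^ z) ha0 ha
    ((le_div_iff₀ hL0).2 (by linarith)) (by positivity) hU (fun k hk => ⟨(hS k hk).1, (hS k hk).2.1⟩)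
    fun n hn => by
      obtain ⟨h1, h2, h3⟩ := hγ _ (left_ne_zero_of_mul (left_ne_zero_of_mul hn))
      rw [nm_mul] at h2 h3
      exact ⟨hl.1.of_mul h1.1, (div_lt_iff₀' hL0).2 h2, by
        rw [← mul_div_assoc]; exact (le_div_iff₀' hL0).2 h3⟩
  have h3 : N2 (fun n => γ (l * n) * cb h n * ((nm (l * n) / B : ℝ) : ℂ) ^ z) (2 * B) ≤
      64 * ∑ n ∈ ball (2 * B), ‖γ (l * n)‖ ^ 2 := by
    rw [Finset.mul_sum]
    refine Finset.sum_le_sum fun n _ => ?_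
    by_cases hn : γ (l * n) = 0
    · simp [hn]
    obtain ⟨-, h2, h3⟩ := hγ _ hn
    have h4 : 1 ≤ nm (l * n) / B := (one_le_div hB).2 h2.le
    have h5 : (nm (l * n) / B) ^ z.re ≤ 8 :=
      (Real.rpow_le_rpow_of_exponent_le h4 (abs_le.1 hz).2).trans
        ((Real.rpow_le_rpow (by linarith) ((div_le_iff₀ hB).2 h3) (by norm_num)).trans
          (by norm_num))
    rw [show (64 : ℝ) * ‖γ (l * n)‖ ^ 2 = (‖γ (l * n)‖ * 1 * 8) ^ 2 by ring, norm_mul, norm_mul,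
      Complex.norm_cpow_eq_rpow_re_of_pos (by linarith)]
    gcongr
    exact norm_cb_le _ _
  have h4 : (K / a) ^ min (ε / 3) (1 / 6) ≤ Z ^ ε := by
    have h5 : K / a ≤ Z ^ 3 := by
      rw [div_eq_mul_inv, pow_succ]
      exact mul_le_mul hKZ (inv_le_of_inv_le₀ (by linarith) hZa) (by positivity) (by positivity)
    refine (Real.rpow_le_rpow (by positivity) h5 hε₀.le).trans
      ((Real.rpow_le_rpow_of_exponent_le (one_le_pow₀ hZ) (min_le_left _ _)).trans (le_of_eq ?_))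
    rw [← Real.rpow_natCast_mul (by linarith)]
    congr 1
    push_cast
    ring
  have hW := WW_nonneg ha0.le hB.le hK.le
  have h5 := (WW_split ha0 hB hK (by linarith : 0 < U) hL hε₀.le (min_le_right _ _)).trans
    (mul_le_mul_of_nonneg_right h4 (by positivity))
  refine le_trans (le_of_eq (Finset.sum_congr rfl fun k _ => ?_)) (h1.trans ?_)
  · congr 2
    refine Finset.sum_congr rfl fun n _ => ?_
    simp only [thn, nm_mul, LW_mul_arg, cb_mul_left]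
    ring
  · rw [mul_assoc C]
    exact (mul_le_mul (mul_le_mul_of_nonneg_left h5 hC.le) h3 (N2_nonneg _ _)
      (by positivity)).trans (le_of_eq (by ring))

theorem WW_eq {a A B : ℝ} (ha : 0 < a) (hA : 0 < A) (hB : 0 < B) :
    A + A / B * WW a B (B ^ 2 / (1 ^ 2 * A)) = EE a A B := by
  obtain ⟨x, hx, rfl⟩ : ∃ x : ℝ, 0 < x ∧ A = x ^ 3 :=
    ⟨A ^ (1 / 3 : ℝ), by positivity, by rw [← Real.rpow_natCast, ← Real.rpow_mul hA.le]; norm_num⟩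
  obtain ⟨y, hy, rfl⟩ : ∃ y : ℝ, 0 < y ∧ B = y ^ 6 :=
    ⟨B ^ (1 / 6 : ℝ), by positivity, by rw [← Real.rpow_natCast, ← Real.rpow_mul hB.le]; norm_num⟩
  have k : ∀ {z : ℝ} (n m : ℕ) (θ : ℝ), 0 < z → (n : ℝ) * θ = m → (z ^ n) ^ θ = z ^ m := by
    intro z n m θ hz h
    rw [← Real.rpow_natCast z n, ← Real.rpow_mul hz.le, h, Real.rpow_natCast]
  have e0 : (y ^ 6) ^ 2 / (1 ^ 2 * x ^ 3) = (y ^ 4 / x) ^ 3 := by field_simp
  have e1 : x ^ 3 * y ^ 6 = (x * y ^ 2) ^ 3 := by ring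
  have e2 : √(y ^ 6) = y ^ 3 := by
    rw [show y ^ 6 = (y ^ 3) ^ 2 by ring, Real.sqrt_sq (by positivity)]
  unfold WW EE
  rw [e0, e1, e2, k 3 1 (1 / 3) (by positivity : 0 < y ^ 4 / x) (by norm_num),
    k 3 2 (2 / 3) (by positivity : 0 < y ^ 4 / x) (by norm_num),
    k 3 2 (2 / 3) (by positivity : 0 < x * y ^ 2) (by norm_num),
    k 6 4 (2 / 3) hy (by norm_num), k 6 2 (1 / 3) hy (by norm_num), k 6 1 (1 / 6) hy (by norm_num),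
    k 6 8 (4 / 3) hy (by norm_num), k 3 2 (2 / 3) hx (by norm_num), k 3 1 (1 / 3) hx (by norm_num)]
  field_simp
  ring

/-- `h1` with `ν = 0`, `a = 1`, `rowBd_thin`, `sum_label` with `w l = dn l ^ 2`,
`∑_{l ∣ b} dn l ^ 2 ≤ dn b ^ 3 ≤ C (2B)^ε` (`dn_le_of_dvd`, `dn_pow_le`), `WW_eq`; `N2 (thn a B' γ) ≤ N2 γ`.
(The constant of `h1` may be replaced by `max C 1`.) -/
theorem en_thin (h1 : StPO) (h2 : StL) {ε : ℝ} (hε : 0 < ε) : ∃ C : ℝ, 0 < C ∧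
    ∀ (Z a A B B' : ℝ) (γ : O → ℂ), 1 ≤ Z → Z⁻¹ ≤ a → a ≤ 1 → 1 ≤ A → 1 ≤ B → B ≤ Z → 0 < B' →
    Supp γ B (2 * B) → EN 1 A (thn a B' γ) (2 * B) ≤ C * Z ^ ε * EE a A B * N2 γ (2 * B) := by
  obtain ⟨C₁, H₁⟩ := h1 0
  obtain ⟨C₂, hC₂, H₂⟩ := rowBd_thin h2 (half_pos hε)
  obtain ⟨C₃, hC₃, H₃⟩ := dn_pow_le 3 (half_pos hε)
  refine ⟨max C₁ 1 * (2 + 2 * C₂ * C₃ * 2 ^ (ε / 2)), by positivity,
    fun Z a A B B' γ hZ hZa ha hA hB hBZ hB' hγ => ?_⟩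
  have ha0 : 0 < a := (inv_pos.2 (by linarith)).trans_le hZa
  have hK : 0 < B ^ 2 / (1 ^ 2 * A) := by positivity
  have hW := WW_nonneg ha0.le (zero_le_one.trans hB) hK.le
  have hs : ∀ l, 0 ≤ ∑ n ∈ ball (2 * B), ‖γ (l * n)‖ ^ 2 := fun l =>
    Finset.sum_nonneg fun _ _ => by positivity
  have h3 := H₁ 1 A B (2 * B) _ _ _ one_pos le_rfl hA (by linarith) (hγ.mul _)
    (fun l => by have := hs l; have := nm_nonneg l; positivity)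
    (fun l => by have := hs l; positivity)
    (H₂ Z a B B' _ γ hZ hZa ha (by linarith) hB' hK ((div_le_self (by positivity)
      (by linarith)).trans (pow_le_pow_left₀ (by linarith) hBZ 2)) hγ)
  rw [← WW_eq ha0 (by linarith) (by linarith)]
  generalize WW a B (B ^ 2 / (1 ^ 2 * A)) = W at h3 hW
  have hN := N2_nonneg γ (2 * B)
  have h4 : N2 (thn a B' γ) (2 * B) ≤ N2 γ (2 * B) := Finset.sum_le_sum fun b _ =>
    pow_le_pow_left₀ (norm_nonneg _) ((norm_mul _ _).trans_le (mul_le_of_le_one_right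
      (norm_nonneg _) (by rw [Complex.norm_of_nonneg (LW_pos _ _ _).le]; exact LW_le_one _ _ _))) 2
  have h5 : ∑ l ∈ sball (2 * B), dn l ^ 2 * ∑ n ∈ ball (2 * B), ‖γ (l * n)‖ ^ 2 ≤
      C₃ * 2 ^ (ε / 2) * Z ^ (ε / 2) * N2 γ (2 * B) := by
    rw [sum_label hγ fun l => dn l ^ 2, N2, Finset.mul_sum]
    refine Finset.sum_le_sum fun b hb => ?_
    rw [mul_comm]
    rcases eq_or_ne b 0 with rfl | h0
    · simp [not_not.1 fun h => (hγ 0 h).1.ne_zero rfl]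
    refine mul_le_mul_of_nonneg_right ((Finset.sum_le_card_nsmul _ _ (dn b ^ 2) fun l hl =>
      pow_le_pow_left₀ (dn_nonneg _) (dn_le_of_dvd h0 ((mem_pdiv h0).1 hl).2) 2).trans ?_)
      (by positivity)
    rw [nsmul_eq_mul, ← dn, ← pow_succ', mul_assoc, ← Real.mul_rpow zero_le_two (by linarith)]
    exact (H₃ b h0).trans (mul_le_mul_of_nonneg_left (Real.rpow_le_rpow (nm_nonneg _)
      ((mem_ball.1 hb).trans (by linarith)) (half_pos hε).le) hC₃.le)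
  have h6 : OD 1 A B (2 * B) 0 (fun l => C₂ * Z ^ (ε / 2) * (nm l ^ (-(1 / 3) : ℝ) * W) *
      ∑ n ∈ ball (2 * B), ‖γ (l * n)‖ ^ 2) (fun l => C₂ * Z ^ (ε / 2) * W *
      ∑ n ∈ ball (2 * B), ‖γ (l * n)‖ ^ 2) = A / B * (2 * C₂ * Z ^ (ε / 2) * W) *
        ∑ l ∈ sball (2 * B), dn l ^ 2 * ∑ n ∈ ball (2 * B), ‖γ (l * n)‖ ^ 2 := by
    rw [OD, pow_zero, inv_one, one_mul, one_mul, mul_assoc (A / B), Finset.mul_sum _ _ (_ * W)]
    refine congrArg _ (Finset.sum_congr rfl fun l hl => ?_)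
    have := (Real.rpow_pos_of_pos (nm_pos (mem_sball.1 hl).2.ne_zero) (1 / 3)).ne'
    rw [Real.rpow_neg (nm_nonneg _)]
    field_simp
    ring
  rw [h6] at h3
  have h7 : Real.sqrt A ≤ A := Real.sqrt_le_self_iff.2 (Or.inr hA)
  have h8 : Z ^ ε = Z ^ (ε / 2) * Z ^ (ε / 2) := by rw [← Real.rpow_add (by linarith), add_halves]
  have h9 : 1 ≤ Z ^ ε := Real.one_le_rpow hZ hε.le
  have hN' := N2_nonneg (thn a B' γ) (2 * B)
  have hS : 0 ≤ ∑ l ∈ sball (2 * B), dn l ^ 2 * ∑ n ∈ ball (2 * B), ‖γ (l * n)‖ ^ 2 :=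
    Finset.sum_nonneg fun l _ => by have := hs l; positivity
  generalize N2 (thn a B' γ) (2 * B) = n₁ at h3 h4 hN'
  generalize N2 γ (2 * B) = n₂ at h4 h5 hN ⊢
  refine h3.trans ((mul_le_mul_of_nonneg_right (le_max_left C₁ 1) (by positivity)).trans ?_)
  rw [mul_assoc (max C₁ 1), mul_assoc (max C₁ 1), mul_assoc (max C₁ 1)]
  refine mul_le_mul_of_nonneg_left ?_ (by positivity)
  have e1 : (1 * A + Real.sqrt A) * n₁ ≤ 2 * Z ^ ε * A * n₂ :=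
    mul_le_mul (by nlinarith) h4 hN' (by positivity)
  have e2 := mul_le_mul_of_nonneg_left h5
    (show 0 ≤ A / B * (2 * C₂ * Z ^ (ε / 2) * W) by positivity)
  have e3 : 0 ≤ 2 * Z ^ ε * (A / B * W) * n₂ := by positivity
  have e4 : 0 ≤ 2 * C₂ * C₃ * 2 ^ (ε / 2) * Z ^ ε * A * n₂ := by positivity
  rw [h8] at e1 e3 e4 ⊢
  linarith

end Crest.Agent.R12.HY
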