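import Crest.Agent.R12.HY.Amp
import Crest.Agent.R12.HY.Bil

/-! Row 12, block HY: `StPO → StL → StHi`.  Prefix for helper lemmas: `hm_`. -/

set_option autoImplicit false

namespace Crest.Agent.R12

open Crest.Agent.R17 HY
open scoped ComplexConjugate

namespace HY

theorem Hyp.mono {a A B Δ Δ' : ℝ} {γ : O → ℂ} (h : Hyp a A B γ Δ) (hΔ : Δ ≤ Δ') : Hyp a A B γ Δ' :=
  fun A' B' hA hB => (h A' B' hA hB).trans (mul_le_mul_of_nonneg_right hΔ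
    (Finset.sum_nonneg fun _ _ => mul_nonneg (by positivity) (LW_pos _ _ _).le))

theorem hm_log {Y A : ℝ} (hY : 1 < Y) (hA : 0 < A) : ∃ x : ℝ, A = Y ^ x :=
  ⟨Real.logb Y A, (Real.rpow_logb (by linarith) hY.ne' hA).symm⟩

theorem hm_EE {Y x b t p s : ℝ} (hY : 1 < Y) (e1 : x + 2 * p ≤ s)
    (e2 : -t + (x + b) * (2 / 3) + p ≤ s) (e3 : x * (2 / 3) + p + b / 6 ≤ s) (e4 : b + t - p ≤ s)
    (e5 : x / 3 + b - t / 3 ≤ s) (e6 : b * (4 / 3) + t / 3 - p ≤ s) :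
    EE (Y ^ (-t)) (Y ^ x * (Y ^ p) ^ 3) (Y ^ b) / Y ^ p ≤ 6 * Y ^ s := by
  have h0 : 0 < Y := by linarith
  have K : ∀ {u : ℝ}, u ≤ s → Y ^ u ≤ Y ^ s := fun h => Real.rpow_le_rpow_of_exponent_le hY.le h
  simp only [EE, add_div, ← Real.rpow_natCast, ← Real.rpow_mul h0.le, ← Real.rpow_add h0,
    ← Real.rpow_sub h0]
  rw [show 6 * Y ^ s = Y ^ s + Y ^ s + Y ^ s + Y ^ s + Y ^ s + Y ^ s by ring]
  refine add_le_add (add_le_add (add_le_add (add_le_add (add_le_add (K ?_) (K ?_)) (K ?_)) (K ?_))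
    (K ?_)) (K ?_) <;> push_cast <;> linarith

theorem hm_cube {A B : ℝ} (hA : 0 ≤ A) (hB : 0 ≤ B) (h : A ≤ 4 * B ^ 2) :
    A ≤ 2 * (A * B) ^ (2 / 3 : ℝ) := by
  have e : (2 * (A * B) ^ (2 / 3 : ℝ)) ^ 3 = 8 * (A * B) ^ 2 := by
    rw [mul_pow, ← Real.rpow_natCast (_ ^ (2 / 3 : ℝ)), ← Real.rpow_mul (by positivity)]
    norm_num
  refine le_of_pow_le_pow_left₀ three_ne_zero (by positivity) ?_
  rw [e]
  nlinarith [mul_le_mul_of_nonneg_left h (sq_nonneg A), sq_nonneg (A * B)]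

theorem hm_L {Y x b t s : ℝ} (hY : 1 < Y) (h : Y ^ x ≤ 4 * (Y ^ b) ^ 2)
    (e1 : -t + (x + b) * (2 / 3) ≤ s) (e2 : x / 2 ≤ s) (e3 : -t / 3 + (x + b) * (2 / 3) ≤ s)
    (e4 : b + t ≤ s) (e5 : x / 3 + b + t / 3 ≤ s) :
    Y ^ (-t) * Y ^ x + √(Y ^ x) + (Y ^ (-t)) ^ (1 / 3 : ℝ) * (Y ^ x * Y ^ b) ^ (2 / 3 : ℝ) +
      Y ^ b / Y ^ (-t) + (Y ^ x) ^ (1 / 3 : ℝ) * Y ^ b * (Y ^ (-t)) ^ (-(1 / 3) : ℝ) ≤ 6 * Y ^ s := by
  have h0 : 0 < Y := by linarith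
  have K : ∀ {u : ℝ}, u ≤ s → Y ^ u ≤ Y ^ s := fun h => Real.rpow_le_rpow_of_exponent_le hY.le h
  have h1 : Y ^ (-t) * Y ^ x ≤ 2 * (Y ^ (-t) * (Y ^ x * Y ^ b) ^ (2 / 3 : ℝ)) := by
    have := mul_le_mul_of_nonneg_left (hm_cube (by positivity) (by positivity) h)
      (Real.rpow_nonneg h0.le (-t))
    linarith
  refine (add_le_add_left (add_le_add_left (add_le_add_left (add_le_add_left h1 _) _) _) _).trans ?_
  simp only [Real.sqrt_eq_rpow, ← Real.rpow_mul h0.le, ← Real.rpow_add h0, ← Real.rpow_sub h0]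
  rw [show 6 * Y ^ s = 2 * Y ^ s + Y ^ s + Y ^ s + Y ^ s + Y ^ s by ring]
  refine add_le_add (add_le_add (add_le_add (add_le_add
    (mul_le_mul_of_nonneg_left (K ?_) two_pos.le) (K ?_)) (K ?_)) (K ?_)) (K ?_) <;> linarith

theorem hm_hyp (h1 : StPO) (h2 : StL) {ρ σ : ℝ} (hσ : 0 < σ) (hρ : σ ≤ ρ / 100) (hσ' : σ ≤ 1 / 1000) :
    ∃ C : ℝ, 0 < C ∧ ∀ (Y a A B : ℝ) (γ : O → ℂ), 2 ≤ Y → Y ^ (-(17 / 100) : ℝ) ≤ a → a ≤ Y ^ (-ρ) →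
    1 ≤ B → B ≤ A → A ≤ 4 * B ^ 2 → Y ^ (1 - σ / 10) ≤ A * B → A * B ≤ Y ^ (1 + σ / 10) →
    Supp γ B (2 * B) → Hyp a A B γ (C * Y ^ (2 / 3 - σ / 2)) := by
  obtain ⟨C₁, hC₁, H₁⟩ := hyp_amp h1 h2 (ε := σ / 4) (by positivity)
  obtain ⟨C₂, hC₂, H₂⟩ := hyp_L h2 (ε := σ / 2) (by positivity)
  refine ⟨6 * (C₁ + C₂), by positivity, fun Y a A B γ hY2 ha1 ha2 hB hBA hAB hlo hhi hγ => ?_⟩
  have hY : 1 < Y := by linarith
  have h0 : 0 < Y := by linarith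
  have ha : 0 < a := lt_of_lt_of_le (by positivity) ha1
  obtain ⟨x, rfl⟩ := hm_log hY (A := A) (by linarith)
  obtain ⟨b, rfl⟩ := hm_log hY (A := B) (by linarith)
  obtain ⟨t', rfl⟩ := hm_log hY ha
  obtain ⟨t, rfl⟩ : ∃ t, t' = -t := ⟨-t', by ring⟩
  have hA : 1 ≤ Y ^ x := hB.trans hBA
  have hb : 0 ≤ b := by
    rwa [← Real.rpow_zero Y, Real.rpow_le_rpow_left_iff hY] at hB
  rw [← Real.rpow_add h0, Real.rpow_le_rpow_left_iff hY] at hlo hhi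
  rw [Real.rpow_le_rpow_left_iff hY] at ha1 ha2 hBA
  have K : ∀ {u v : ℝ}, u ≤ v → Y ^ u ≤ Y ^ v := fun h => Real.rpow_le_rpow_of_exponent_le hY.le h
  have ha3 : Y ^ (-t) ≤ 1 := by rw [← Real.rpow_zero Y]; exact K (by linarith)
  have hs : Y ^ (σ / 2) * Y ^ (2 / 3 - σ) = Y ^ (2 / 3 - σ / 2) := by
    rw [← Real.rpow_add h0]; congr 1; ring
  have hp0 : 0 < Y ^ (2 / 3 - σ / 2) := by positivity
  by_cases hx : 6 / 10 ≤ x
  · refine (H₂ _ _ _ γ ha ha3 hA hB hγ).mono ?_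
    have e1 := hm_L (s := 2 / 3 - σ) (t := t) hY hAB (by linarith) (by linarith) (by linarith)
      (by linarith) (by linarith)
    have e2 : (Y ^ b / Y ^ (-t)) ^ (σ / 2) ≤ Y ^ (σ / 2) := by
      refine Real.rpow_le_rpow (by positivity) ?_ (by positivity)
      rw [← Real.rpow_sub h0]
      exact (K (by linarith)).trans_eq (Real.rpow_one Y)
    calc _ ≤ C₂ * Y ^ (σ / 2) * (6 * Y ^ (2 / 3 - σ)) := by gcongr
      _ = 6 * C₂ * Y ^ (2 / 3 - σ / 2) := by rw [← hs]; ring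
      _ ≤ _ := by gcongr; linarith
  · have key : ∀ p : ℝ, 0 ≤ p → p ≤ 1 →
        EE (Y ^ (-t)) (Y ^ x * (Y ^ p) ^ 3) (Y ^ b) / Y ^ p ≤ 6 * Y ^ (2 / 3 - σ) →
        Hyp (Y ^ (-t)) (Y ^ x) (Y ^ b) γ (6 * (C₁ + C₂) * Y ^ (2 / 3 - σ / 2)) := by
      intro p hp hp' e1
      refine (H₁ (Y ^ (2 : ℝ)) _ _ _ (Y ^ p) γ (Real.one_le_rpow hY.le two_pos.le)
        (by rw [← Real.rpow_neg h0.le]; exact K (by linarith)) ha3 hA (K (by linarith)) hB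
        (K (by linarith)) (Real.one_le_rpow hY.le hp) (K (by linarith)) hγ).mono ?_
      have e2 : (Y ^ (2 : ℝ)) ^ (σ / 4) = Y ^ (σ / 2) := by
        rw [← Real.rpow_mul h0.le]; congr 1; ring
      rw [e2]
      calc _ ≤ C₁ * Y ^ (σ / 2) * (6 * Y ^ (2 / 3 - σ)) := by gcongr
        _ = 6 * C₁ * Y ^ (2 / 3 - σ / 2) := by rw [← hs]; ring
        _ ≤ _ := by gcongr; linarith
    by_cases hx' : 545 / 1000 ≤ x
    · exact key 0 le_rfl zero_le_one (hm_EE hY (by linarith) (by linarith) (by linarith) (by linarith)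
        (by linarith) (by linarith))
    · exact key (35 / 100 * t) (by linarith) (by linarith) (hm_EE hY (by linarith) (by linarith)
        (by linarith) (by linarith) (by linarith) (by linarith))

theorem hm_N2 (k : ℕ) {ε : ℝ} (hε : 0 < ε) : ∃ C : ℝ, 0 < C ∧ ∀ (B : ℝ) (γ : O → ℂ), 1 ≤ B →
    Supp γ B (2 * B) → Dv k γ → √(N2 γ (2 * B)) ≤ C * B ^ ((1 + ε) / 2) := by
  obtain ⟨C, hC, H⟩ := dn_pow_le (k * 2) hε
  refine ⟨√(22 * C * 2 ^ ε), by positivity, fun B γ hB hs hγ => ?_⟩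
  have hB0 : 0 < B := by linarith
  have e : N2 γ (2 * B) ≤ 22 * C * 2 ^ ε * B ^ (1 + ε) := by
    have h1 : N2 γ (2 * B) ≤ (ball (2 * B)).card • (C * (2 * B) ^ ε) := by
      refine Finset.sum_le_card_nsmul _ _ _ fun b hb => ?_
      by_cases h0 : γ b = 0
      · rw [h0, norm_zero, zero_pow two_ne_zero]
        positivity
      calc ‖γ b‖ ^ 2 ≤ (dn b ^ k) ^ 2 := pow_le_pow_left₀ (norm_nonneg _) (hγ b) 2
        _ ≤ C * nm b ^ ε := by rw [← pow_mul]; exact H b (hs b h0).1.ne_zero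
        _ ≤ _ := by
          have := nm_nonneg b
          have := mem_ball.1 hb
          gcongr
    rw [nsmul_eq_mul] at h1
    have h2 := card_ball_le (X := 2 * B) (by linarith)
    calc _ ≤ _ := h1
      _ ≤ 11 * (2 * B) * (C * (2 * B) ^ ε) := by gcongr
      _ = _ := by
        rw [Real.mul_rpow two_pos.le hB0.le, Real.rpow_add hB0, Real.rpow_one]
        ring
  refine (Real.sqrt_le_sqrt e).trans_eq ?_
  rw [Real.sqrt_mul (by positivity), Real.sqrt_eq_rpow (B ^ _), ← Real.rpow_mul hB0.le]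
  congr 2
  ring

theorem hm_model {Y a W ρ σ : ℝ} (hY : 1 < Y) (ha : a ≤ Y ^ (-ρ)) (hσ : 0 < σ)
    (hρ : σ ≤ ρ / 100) (hσ' : σ ≤ 1 / 1000) (hlo : Y ^ (1 - σ / 10) ≤ W) (hhi : W ≤ Y ^ (1 + σ / 10)) :
    W ^ (-(1 : ℝ) / 6) * √(a * W + √W) ≤ 2 * Y ^ (1 / 3 - σ / 4) := by
  have h0 : 0 < Y := by linarith
  have hW : 0 < W := lt_of_lt_of_le (by positivity) hlo
  have K : ∀ {u v : ℝ}, u ≤ v → Y ^ u ≤ Y ^ v := fun h => Real.rpow_le_rpow_of_exponent_le hY.le h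
  obtain ⟨w, rfl⟩ := hm_log hY hW
  rw [Real.rpow_le_rpow_left_iff hY] at hlo hhi
  have e1 : a * Y ^ w ≤ Y ^ (1 - 10 * σ) := by
    refine (mul_le_mul_of_nonneg_right ha hW.le).trans ?_
    rw [← Real.rpow_add h0]
    exact K (by linarith)
  have e2 : √(Y ^ w) ≤ Y ^ (1 - 10 * σ) := by
    rw [Real.sqrt_eq_rpow, ← Real.rpow_mul h0.le]
    exact K (by linarith)
  have e3 : √(a * Y ^ w + √(Y ^ w)) ≤ 2 * Y ^ (1 / 2 - 5 * σ) := by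
    refine Real.sqrt_le_iff.2 ⟨by positivity, ?_⟩
    rw [mul_pow, ← Real.rpow_natCast (Y ^ _), ← Real.rpow_mul h0.le,
      show (1 / 2 - 5 * σ) * ((2 : ℕ) : ℝ) = 1 - 10 * σ by push_cast; ring]
    have : 0 < Y ^ (1 - 10 * σ) := by positivity
    linarith
  calc _ ≤ (Y ^ w) ^ (-(1 : ℝ) / 6) * (2 * Y ^ (1 / 2 - 5 * σ)) := by gcongr
    _ = 2 * Y ^ (w * (-(1 : ℝ) / 6) + (1 / 2 - 5 * σ)) := by
      rw [← Real.rpow_mul h0.le, Real.rpow_add h0]; ring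
    _ ≤ _ := mul_le_mul_of_nonneg_left (K (by linarith)) two_pos.le

theorem hm_main (h1 : StPO) (h2 : StL) (k : ℕ) {ρ σ : ℝ} (hσ : 0 < σ) (hρ : σ ≤ ρ / 100)
    (hσ' : σ ≤ 1 / 1000) : ∃ C : ℝ, 0 < C ∧ ∀ (Y a A B : ℝ) (α γ : O → ℂ), 2 ≤ Y →
    Y ^ (-(17 / 100) : ℝ) ≤ a → a ≤ Y ^ (-ρ) → 1 ≤ B → B ≤ A → A ≤ 4 * B ^ 2 →
    Supp α A (2 * A) → Supp γ B (2 * B) → Dv k α → Dv k γ →
    ‖Bil a Y α γ (2 * A) (2 * B)‖ ≤ C * Y ^ (5 / 6 - σ / 10) := by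
  obtain ⟨C₁, hC₁, H₁⟩ := hm_hyp h1 h2 hσ hρ hσ'
  obtain ⟨C₂, hC₂, H₂⟩ := bil_le
  obtain ⟨C₃, hC₃, H₃⟩ := hm_N2 k (ε := σ / 10) (by positivity)
  obtain ⟨C₄, hC₄, H₄⟩ := Bil_far k 0 (σ / 10) (by positivity)
  refine ⟨C₄ + C₂ * (√C₁ + 2) * C₃ ^ 2, by positivity,
    fun Y a A B α γ hY2 ha1 ha2 hB hBA hAB hα hγ dα dγ => ?_⟩
  have hY : 1 < Y := by linarith
  have h0 : 0 < Y := by linarith
  have ha : 0 < a := lt_of_lt_of_le (by positivity) ha1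
  have ha3 : a ≤ 1 := ha2.trans (Real.rpow_le_one_of_one_le_of_nonpos hY.le (by linarith))
  have hA : 1 ≤ A := hB.trans hBA
  have hp : 1 ≤ Y ^ (5 / 6 - σ / 10) := Real.one_le_rpow hY.le (by linarith)
  have hq : 0 < C₂ * (√C₁ + 2) * C₃ ^ 2 := by positivity
  by_cases hc : A * B ≤ Y ^ (1 - σ / 10) ∨ Y ^ (1 + σ / 10) ≤ A * B
  · refine (H₄ Y a A B α γ hY.le ha ha3 (by linarith) (by linarith) hα hγ dα dγ hc).trans ?_
    rw [neg_zero, Real.rpow_zero]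
    gcongr
    linarith
  · rw [not_or, not_le, not_le] at hc
    have e0 := H₂ Y a A B _ α γ h0 ha ha3 hA hB (by positivity) hα hγ
      (H₁ Y a A B γ hY2 ha1 ha2 hB hBA hAB hc.1.le hc.2.le hγ)
    have e1 := hm_model hY ha2 hσ hρ hσ' hc.1.le hc.2.le
    have e2 : √(C₁ * Y ^ (2 / 3 - σ / 2)) = √C₁ * Y ^ (1 / 3 - σ / 4) := by
      rw [Real.sqrt_mul hC₁.le, Real.sqrt_eq_rpow (Y ^ _), ← Real.rpow_mul h0.le]
      congr 2
      ring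
    have e3 : A ^ ((1 + σ / 10) / 2) * B ^ ((1 + σ / 10) / 2) ≤ Y ^ (1 / 2 + 3 / 20 * σ) := by
      rw [← Real.mul_rpow (by linarith) (by linarith)]
      refine (Real.rpow_le_rpow (by positivity) hc.2.le (by positivity)).trans ?_
      rw [← Real.rpow_mul h0.le]
      exact Real.rpow_le_rpow_of_exponent_le hY.le (by nlinarith)
    have e4 := H₃ A α hA hα dα
    have e5 := H₃ B γ hB hγ dγ
    rw [e2] at e0
    calc _ ≤ _ := e0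
      _ ≤ C₂ * (√C₁ * Y ^ (1 / 3 - σ / 4) + 2 * Y ^ (1 / 3 - σ / 4)) *
          (C₃ * A ^ ((1 + σ / 10) / 2) * (C₃ * B ^ ((1 + σ / 10) / 2))) := by gcongr
      _ = C₂ * (√C₁ + 2) * C₃ ^ 2 * (Y ^ (1 / 3 - σ / 4) *
          (A ^ ((1 + σ / 10) / 2) * B ^ ((1 + σ / 10) / 2))) := by ring
      _ ≤ C₂ * (√C₁ + 2) * C₃ ^ 2 * (Y ^ (1 / 3 - σ / 4) * Y ^ (1 / 2 + 3 / 20 * σ)) := by gcongr
      _ = C₂ * (√C₁ + 2) * C₃ ^ 2 * Y ^ (5 / 6 - σ / 10) := by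
        rw [← Real.rpow_add h0]; congr 2; ring
      _ ≤ _ := by gcongr; linarith

end HY

theorem stHi (h1 : StPO) (h2 : StL) : StHi := by
  intro ρ k hρ
  have hσ : 0 < min (ρ / 100) (1 / 1000) := lt_min (by positivity) (by norm_num)
  obtain ⟨C, -, H⟩ := hm_main h1 h2 k hσ (min_le_left _ _) (min_le_right _ _)
  refine ⟨_, C, div_pos hσ (by norm_num : (0 : ℝ) < 10),
    fun Y a A B α γ hY ha1 ha2 hA hB hAB hBA hα hγ dα dγ => ?_⟩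
  rcases le_total B A with h | h
  · exact H Y a A B α γ hY ha1 ha2 hB h hAB hα hγ dα dγ
  · rw [Bil_comm]
    exact H Y a B A γ α hY ha1 ha2 hA h hBA hγ hα dγ dα

end Crest.Agent.R12
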